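import Vale.Agent.P227.ZonoidMain

/-!
# P227 / Slab : log-Minkowski at every body with the comparison property
-/

open MeasureTheory Set Metric Filter Topology
open scoped ENNReal NNReal Pointwise

namespace Vale.Agent.P227

/-- The comparison property (it holds for zonoids by `lemmaZ_zonoid` and for intersections of
`n + 1` slabs by `lemmaZ_slabs`). -/
def Good {n : ℕ} (W : Set (EV n)) : Prop :=
  ∀ s t : ℝ, 0 < s → 0 < t → s + t = 1 → ∀ K L : Set (EV n), SymConvexBody K →
    SymConvexBody L →
    (∀ u : EV n, ‖u‖ = 1 → s * Real.log (supportFn K u) + t * Real.log (supportFn L u) ≤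
      Real.log (supportFn W u)) →
    s * Real.log (evol K) + t * Real.log (evol L) ≤ Real.log (evol W)

/-- The logarithmic Minkowski inequality at good bodies (compare `log_minkowski_zonoid`). -/
theorem log_minkowski_good {n : ℕ} (hn : 0 < n) {K L : Set (EV n)} (hK : SymConvexBody K)
    (hz : Good K) (hL : SymConvexBody L) (ν : EV n → EV n)
    (hν : ∀ᵐ x ∂(volume.restrict K), ‖ν x‖ = 1 ∧
      inner ℝ x (ν x) = gauge K x * supportFn K (ν x)) :
    evol K / n * Real.log (evol L / evol K) ≤
      ∫ x in K, Real.log (supportFn L (ν x) / supportFn K (ν x)) := by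
  have hKpos := evol_pos hK
  have hLpos := evol_pos hL
  have hn' : (0 : ℝ) < n := by exact_mod_cast hn
  obtain ⟨B, hB0, hB⟩ := lratio_bound hK hL
  set ε : ℕ → ℝ := fun k => 1 / ((k : ℝ) + 1) with hε
  have hεpos : ∀ k, 0 < ε k := fun k => by positivity
  have hε0 : Tendsto ε atTop (𝓝 0) := tendsto_one_div_add_atTop_nhds_zero_nat
  set F : ℕ → EV n → ℝ := fun k x =>
    (Real.log (gauge (pbody K L (ε k)) x) - Real.log (gauge K x)) / ε k with hF
  set ρ : Measure (EV n) := volume.restrict (interior K) with hρ
  have : Nontrivial (EV n) := by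
    have : 0 < Module.finrank ℝ (EV n) := by rw [finrank_euclideanSpace_fin]; exact hn
    exact Module.nontrivial_of_finrank_pos this
  have hfinK : volume (interior K) ≠ ∞ := by
    rw [evol_interior hK]; exact hK.isCompact.measure_lt_top.ne
  have : IsFiniteMeasure ρ := ⟨by rw [hρ, Measure.restrict_apply_univ]; exact hfinK.lt_top⟩
  have hne0 : ∀ᵐ x ∂ρ, x ≠ 0 := by
    apply ae_restrict_of_ae
    rw [ae_iff]
    simp
  -- bound
  have hFb : ∀ k, ∀ x : EV n, x ≠ 0 → |F k x| ≤ B := by
    intro k x hx
    obtain ⟨hlow, u, hu, heq, hpos, hle⟩ := pbody_gauge hn hK hL (ε k) hx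
    obtain ⟨_, w, hw, hxw⟩ := hK.exists_normal hn x
    have h1 := hlow w hw hxw
    have h2 := (abs_le.1 (hB w hw)).1
    have h3 := (abs_le.1 (hB u hu)).2
    have hku := hK.supportFn_pos (ne_zero_of_norm_one hu)
    have hg := hK.gauge_pos hx
    have h4 : Real.log (inner ℝ x u / (gauge K x * supportFn K u)) ≤ 0 := by
      apply Real.log_nonpos (by positivity)
      rw [div_le_one (by positivity)]
      exact hle
    have hk := hεpos k
    rw [abs_le]
    constructor
    · rw [hF]
      simp only
      rw [le_div_iff₀ hk]
      nlinarith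
    · rw [hF]
      simp only
      rw [div_le_iff₀ hk, heq]
      nlinarith
  have hFm : ∀ k, Measurable (F k) := by
    intro k
    have hP := pbody_scb hK hL (ε k)
    exact ((Real.measurable_log.comp hP.continuous_gauge.measurable).sub
      (Real.measurable_log.comp hK.continuous_gauge.measurable)).div_const _
  -- the volume inequality for each k
  have hvol : ∀ k, evol K * ((1 - Real.exp (-(ε k * Real.log (evol L / evol K)))) / ε k) ≤
      n * ∫ x, F k x ∂ρ := by
    intro k
    have hP := pbody_scb hK hL (ε k)
    have hPpos := evol_pos hP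
    have hk := hεpos k
    -- upper bound on evol P
    have hs : 0 < 1 / (1 + ε k) := by positivity
    have ht : 0 < ε k / (1 + ε k) := by positivity
    have hst : 1 / (1 + ε k) + ε k / (1 + ε k) = 1 := by field_simp
    have hZ := hz (1 / (1 + ε k)) (ε k / (1 + ε k)) hs ht hst (pbody K L (ε k)) L hP hL (by
      intro u hu
      have hu0 := ne_zero_of_norm_one hu
      have pK := hK.supportFn_pos hu0
      have pP := hP.supportFn_pos hu0
      have h1 : supportFn (pbody K L (ε k)) u ≤ pert K L (ε k) u :=
        supportFn_le ⟨0, hP.zero_mem⟩ fun x hx => hx u hu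
      have h2 := Real.log_le_log pP h1
      rw [pert, Real.log_mul pK.ne' (Real.exp_pos _).ne', Real.log_exp] at h2
      have h3 : 1 / (1 + ε k) * Real.log (supportFn (pbody K L (ε k)) u) ≤
          1 / (1 + ε k) * (Real.log (supportFn K u) + -(ε k * lratio K L u)) :=
        mul_le_mul_of_nonneg_left h2 hs.le
      refine (add_le_add_left h3 _).trans (le_of_eq ?_)
      rw [lratio]
      field_simp
      ring)
    have hup : Real.log (evol (pbody K L (ε k))) ≤
        Real.log (evol K) - ε k * Real.log (evol L / evol K) := by
      rw [Real.log_div hLpos.ne' hKpos.ne']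
      have h5 : Real.log (evol (pbody K L (ε k))) + ε k * Real.log (evol L) ≤
          (1 + ε k) * Real.log (evol K) := by
        calc Real.log (evol (pbody K L (ε k))) + ε k * Real.log (evol L)
            = (1 + ε k) * (1 / (1 + ε k) * Real.log (evol (pbody K L (ε k))) +
              ε k / (1 + ε k) * Real.log (evol L)) := by field_simp
          _ ≤ (1 + ε k) * Real.log (evol K) := by
              apply mul_le_mul_of_nonneg_left hZ (by positivity)
      nlinarith
    have hup2 : evol (pbody K L (ε k)) ≤
        evol K * Real.exp (-(ε k * Real.log (evol L / evol K))) := by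
      rw [← Real.exp_log hPpos, ← Real.exp_log hKpos, ← Real.exp_add, Real.exp_log hKpos]
      apply Real.exp_le_exp.2
      linarith
    -- lower bound on evol P
    have hlowP : evol K - n * ε k * ∫ x, F k x ∂ρ ≤ evol (pbody K L (ε k)) := by
      have hInt : Integrable (F k) ρ := by
        apply Integrable.of_bound (hFm k).aestronglyMeasurable B
        filter_upwards [hne0] with x hx
        rw [Real.norm_eq_abs]
        exact hFb k x hx
      have h1 : evol (pbody K L (ε k)) =
          ∫ x, (gauge K x / gauge (pbody K L (ε k)) x) ^ n ∂ρ := by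
        rw [evol, evol_eq_integral hn hK hP, integral_eq_lintegral_of_nonneg_ae]
        · apply Filter.Eventually.of_forall
          intro x
          exact pow_nonneg (div_nonneg (gauge_nonneg _) (gauge_nonneg _)) _
        · exact ((hK.continuous_gauge.measurable.div
            hP.continuous_gauge.measurable).pow_const _).aestronglyMeasurable
      have hpt : ∀ x : EV n, x ≠ 0 → (gauge K x / gauge (pbody K L (ε k)) x) ^ n =
          Real.exp (-(n * ε k * F k x)) := by
        intro x hx
        have p1 := hK.gauge_pos hx
        have p2 := hP.gauge_pos hx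
        rw [← Real.exp_log (div_pos p1 p2), ← Real.exp_nat_mul, Real.log_div p1.ne' p2.ne']
        congr 1
        simp only [hF]
        field_simp
        ring
      have hInt2 : Integrable (fun x => (gauge K x / gauge (pbody K L (ε k)) x) ^ n) ρ := by
        apply Integrable.of_bound (C := Real.exp (n * ε k * B))
        · exact ((hK.continuous_gauge.measurable.div
            hP.continuous_gauge.measurable).pow_const _).aestronglyMeasurable
        · filter_upwards [hne0] with x hx
          rw [hpt x hx, Real.norm_eq_abs, Real.abs_exp]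
          apply Real.exp_le_exp.2
          have := (abs_le.1 (hFb k x hx)).1
          have h7 : 0 ≤ n * ε k := by positivity
          nlinarith
      have h2 : ∫ x, (1 - n * ε k * F k x) ∂ρ ≤
          ∫ x, (gauge K x / gauge (pbody K L (ε k)) x) ^ n ∂ρ := by
        apply integral_mono_ae ((integrable_const _).sub (hInt.const_mul _)) hInt2
        filter_upwards [hne0] with x hx
        rw [hpt x hx]
        have := Real.add_one_le_exp (-(n * ε k * F k x))
        simp only [Pi.sub_apply]
        linarith
      rw [integral_sub (integrable_const _) (hInt.const_mul _), integral_const_mul] at h2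
      rw [h1]
      refine le_trans (le_of_eq ?_) h2
      congr 1
      rw [integral_const, hρ]
      simp only [smul_eq_mul, mul_one]
      rw [measureReal_restrict_apply_univ, Measure.real, evol_interior hK]
      rfl
    have h8 : evol K * (1 - Real.exp (-(ε k * Real.log (evol L / evol K)))) ≤
        n * ε k * ∫ x, F k x ∂ρ := by
      have := hlowP.trans hup2
      linarith
    rw [← mul_div_assoc, div_le_iff₀ hk]
    linarith
  -- limits
  have hlimL : Tendsto (fun k => evol K * ((1 - Real.exp (-(ε k * Real.log (evol L / evol K)))) /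
      ε k)) atTop (𝓝 (evol K * Real.log (evol L / evol K))) := by
    apply Tendsto.const_mul
    set Δ := Real.log (evol L / evol K)
    have hder : HasDerivAt (fun z : ℝ => -Real.exp (-(z * Δ))) Δ 0 := by
      have h1 : HasDerivAt (fun z : ℝ => -(z * Δ)) (-(1 * Δ)) 0 := ((hasDerivAt_id 0).mul_const Δ).neg
      have h2 : HasDerivAt (fun z : ℝ => -Real.exp (-(z * Δ)))
          (-(Real.exp (-(0 * Δ)) * -(1 * Δ))) 0 := h1.exp.neg
      simpa using h2
    have hsl := hder.tendsto_slope_zero_right
    have hcomp : Tendsto ε atTop (𝓝[>] 0) := by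
      rw [tendsto_nhdsWithin_iff]
      exact ⟨hε0, Filter.Eventually.of_forall hεpos⟩
    have h3 := hsl.comp hcomp
    refine h3.congr fun k => ?_
    simp only [Function.comp_apply, zero_add, zero_mul, neg_zero, Real.exp_zero, smul_eq_mul]
    field_simp
    ring
  have haeν : ∀ᵐ x ∂ρ, ‖ν x‖ = 1 ∧ inner ℝ x (ν x) = gauge K x * supportFn K (ν x) :=
    ae_restrict_of_ae_restrict_of_subset interior_subset hν
  have hlimR : Tendsto (fun k => ∫ x, F k x ∂ρ) atTop (𝓝 (∫ x, lratio K L (ν x) ∂ρ)) := by
    apply tendsto_integral_of_dominated_convergence (fun _ => B)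
    · exact fun k => (hFm k).aestronglyMeasurable
    · exact integrable_const _
    · intro k
      filter_upwards [hne0] with x hx
      rw [Real.norm_eq_abs]
      exact hFb k x hx
    · filter_upwards [hne0, haeν, ae_restrict_of_ae hK.ae_differentiable] with x hx hνx hd
      exact pbody_tendsto hn hK hL hx hνx.1 hνx.2
        (fun w hw hxw => hK.normal_unique hn hd hw hνx.1 hxw hνx.2) ε hεpos hε0
  have hfinal := le_of_tendsto_of_tendsto' hlimL (hlimR.const_mul (n : ℝ)) hvol
  have hint : ∫ x in K, Real.log (supportFn L (ν x) / supportFn K (ν x)) =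
      ∫ x, lratio K L (ν x) ∂ρ := by
    have hae : (interior K : Set (EV n)) =ᵐ[volume] K := by
      apply ae_eq_of_subset_of_measure_ge interior_subset (evol_interior hK).ge
      · exact isOpen_interior.measurableSet.nullMeasurableSet
      · exact hK.isCompact.measure_lt_top.ne
    rw [← setIntegral_congr_set hae]
    apply integral_congr_ae
    filter_upwards [haeν] with x hx
    have hx0 := ne_zero_of_norm_one hx.1
    rw [Real.log_div (hL.supportFn_pos hx0).ne' (hK.supportFn_pos hx0).ne']
    rfl
  rw [hint, div_mul_eq_mul_div, div_le_iff₀ hn']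
  linarith

/-- Logarithmic Brunn-Minkowski when the combination is good (compare `log_bm_zonoid`). -/
theorem log_bm_good {n : ℕ} {K L : Set (EV n)} (hK : SymConvexBody K)
    (hL : SymConvexBody L) {t : ℝ} (ht : t ∈ Icc (0 : ℝ) 1) (hz : Good (logComb t K L)) :
    evol K ^ (1 - t) * evol L ^ t ≤ evol (logComb t K L) := by
  obtain ⟨ht0, ht1⟩ := ht
  rcases Nat.eq_zero_or_pos n with h0 | hn
  · subst h0
    have huniv : ∀ S : Set (EV 0), S.Nonempty → S = univ := by
      intro S hS
      obtain ⟨x, hx⟩ := hS
      ext y
      simp only [mem_univ, iff_true]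
      rwa [Subsingleton.elim y x]
    have h1 : logComb t K L = univ := by
      apply huniv
      refine ⟨0, fun u hu => ?_⟩
      rw [Subsingleton.elim u 0] at hu
      simp at hu
    have hpos : 0 < evol (univ : Set (EV 0)) := by
      have := evol_pos hK
      rwa [huniv K ⟨0, hK.zero_mem⟩] at this
    rw [h1, huniv K ⟨0, hK.zero_mem⟩, huniv L ⟨0, hL.zero_mem⟩, ← Real.rpow_add hpos]
    simp
  · obtain ⟨hW, _⟩ := logComb_facts hn hK hL ht0 ht1
    apply log_bm_of_log_minkowski hn hK hL ht0 ht1
    intro M hM ν hν
    exact log_minkowski_good hn hW hz hM ν hν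

end Vale.Agent.P227
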