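import Vale.Agent.P227.Slab.LogVol
import Vale.Agent.P227.Transfer

/-!
# P227 / Slab : comparison lemma at an intersection of `n + 1` slabs
-/

open MeasureTheory Set

namespace Vale.Agent.P227

/-- Intersection of `n + 1` origin-symmetric slabs in `R^n`. -/
def IsSlabs {n : ℕ} (K : Set (EuclideanSpace ℝ (Fin n))) : Prop :=
  ∃ v : Fin (n + 1) → EuclideanSpace ℝ (Fin n), K = {x | ∀ j, |inner ℝ x (v j)| ≤ 1}

open scoped Matrix in
theorem sz_inner {n : ℕ} (x y : EV n) : crd n x ⬝ᵥ crd n y = inner ℝ x y := by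
  rw [EuclideanSpace.inner_eq_star_dotProduct, dotProduct_comm]
  rfl

theorem sz_image {n m : ℕ} (v : Fin (m + 1) → EV n) (h : Fin (m + 1) → ℝ) (hm : m = n) :
    crd n '' {x | ∀ j, |inner ℝ x (v j)| ≤ h j} =
      {x | ∀ j, |x ⬝ᵥ crd n (v j)| ≤ h j} := by
  subst hm
  ext x
  constructor
  · rintro ⟨y, hy, rfl⟩ j
    rw [sz_inner]
    exact hy j
  · intro hx
    refine ⟨(crd m).symm x, fun j => ?_, by simp⟩
    rw [← sz_inner]
    simpa using hx j

theorem sz_abs_inner_le {n : ℕ} {K : Set (EV n)} (hK : SymConvexBody K) {x : EV n} (hx : x ∈ K)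
    (u : EV n) : |inner ℝ x u| ≤ supportFn K u := by
  rw [abs_le]
  refine ⟨?_, inner_le_supportFn hK.isCompact hx u⟩
  have h1 := inner_le_supportFn hK.isCompact (hK.symm x hx) u
  rw [inner_neg_left] at h1
  linarith

/-- positive widths -/
noncomputable def szw {n : ℕ} (K : Set (EV n)) (v : EV n) : ℝ :=
  if v = 0 then 1 else supportFn K v

theorem szw_pos {n : ℕ} {K : Set (EV n)} (hK : SymConvexBody K) (v : EV n) : 0 < szw K v := by
  unfold szw
  split_ifs with h
  · exact one_pos
  · exact hK.supportFn_pos h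

theorem szw_le {n : ℕ} {K : Set (EV n)} (hK : SymConvexBody K) {x : EV n} (hx : x ∈ K)
    (v : EV n) : |inner ℝ x v| ≤ szw K v := by
  unfold szw
  split_ifs with h
  · rw [h, inner_zero_right, abs_zero]
    exact zero_le_one
  · exact sz_abs_inner_le hK hx v

theorem sz_bdd {n : ℕ} (v : Fin (n + 1) → Fin n → ℝ)
    (hb : Bornology.IsBounded (Slab.body v 1)) (h : Fin (n + 1) → ℝ) :
    Bornology.IsBounded (Slab.body v h) := by
  obtain ⟨R, hR⟩ := hb.exists_norm_le
  set r : ℝ := 1 + ∑ j, |h j| with hr
  have hr0 : 0 < r := by positivity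
  refine isBounded_iff_forall_norm_le.2 ⟨r * R, fun x hx => ?_⟩
  have h1 : r⁻¹ • x ∈ Slab.body v 1 := by
    intro j
    have h2 : |x ⬝ᵥ v j| ≤ r := by
      refine (hx j).trans ((le_abs_self _).trans ?_)
      have := Finset.single_le_sum (f := fun j => |h j|) (fun i _ => abs_nonneg (h i))
        (Finset.mem_univ j)
      linarith
    rw [smul_dotProduct, smul_eq_mul, abs_mul, abs_of_pos (inv_pos.2 hr0)]
    show _ ≤ (1 : ℝ)
    rw [inv_mul_le_iff₀ hr0, mul_one]
    exact h2
  have h3 := hR _ h1
  rw [norm_smul, norm_inv, Real.norm_of_nonneg hr0.le, inv_mul_le_iff₀ hr0] at h3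
  exact h3

/-- The comparison lemma (compare `lemmaZ_zonoid`). -/
theorem lemmaZ_slabs {n : ℕ} {s t : ℝ} (hs0 : 0 < s) (ht0 : 0 < t) (hst : s + t = 1)
    {W K L : Set (EV n)} (hW : SymConvexBody W) (hz : IsSlabs W) (hK : SymConvexBody K)
    (hL : SymConvexBody L)
    (h : ∀ u : EV n, ‖u‖ = 1 →
      s * Real.log (supportFn K u) + t * Real.log (supportFn L u) ≤
        Real.log (supportFn W u)) :
    s * Real.log (evol K) + t * Real.log (evol L) ≤ Real.log (evol W) := by
  obtain ⟨v, hv⟩ := hz
  set v' : Fin (n + 1) → Fin n → ℝ := fun j => crd n (v j) with hv'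
  have hWi : crd n '' W = Slab.body v' 1 := by
    rw [hv]
    exact sz_image v 1 rfl
  have hb : Bornology.IsBounded (Slab.body v' 1) := by
    rw [← hWi]
    exact (hW.isCompact.image (crd n).continuous).isBounded
  -- the widths
  have hle : ∀ j, szw K (v j) ^ s * szw L (v j) ^ t ≤ 1 := by
    intro j
    by_cases h0 : v j = 0
    · unfold szw
      rw [if_pos h0, if_pos h0, Real.one_rpow, Real.one_rpow, mul_one]
    · have hnu : 0 < ‖v j‖ := norm_pos_iff.2 h0
      have hKw := hK.supportFn_pos h0
      have hLw := hL.supportFn_pos h0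
      have hWw := hW.supportFn_pos h0
      have h1 : supportFn W (v j) ≤ 1 := by
        apply supportFn_le ⟨0, hW.zero_mem⟩
        intro x hx
        rw [hv] at hx
        exact (le_abs_self _).trans (hx j)
      set w := ‖v j‖⁻¹ • v j with hw
      have hw1 : ‖w‖ = 1 := by rw [hw, norm_smul, norm_inv, norm_norm]; field_simp
      have hw0 : w ≠ 0 := by intro h0; rw [h0] at hw1; simp at hw1
      have hwu : v j = ‖v j‖ • w := by rw [hw, smul_smul, mul_inv_cancel₀ hnu.ne', one_smul]
      have e : ∀ {M : Set (EV n)}, SymConvexBody M → Real.log (supportFn M (v j)) =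
          Real.log ‖v j‖ + Real.log (supportFn M w) := by
        intro M hM
        conv_lhs => rw [hwu]
        rw [supportFn_smul hM.isCompact ⟨0, hM.zero_mem⟩ hnu.le,
          Real.log_mul hnu.ne' (hM.supportFn_pos hw0).ne']
      have h2 := h w hw1
      have h3 : s * Real.log (supportFn K (v j)) + t * Real.log (supportFn L (v j)) ≤
          Real.log (supportFn W (v j)) := by
        rw [e hK, e hL, e hW]
        have : s * Real.log ‖v j‖ + t * Real.log ‖v j‖ = Real.log ‖v j‖ := by
          rw [← add_mul, hst, one_mul]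
        linarith
      have h4 : Real.log (supportFn W (v j)) ≤ 0 := Real.log_nonpos hWw.le h1
      unfold szw
      rw [if_neg h0, if_neg h0]
      rw [← Real.log_nonpos_iff (by positivity), Real.log_mul (by positivity) (by positivity),
        Real.log_rpow hKw, Real.log_rpow hLw]
      linarith
  -- inclusions
  have hsub : ∀ {M : Set (EV n)}, SymConvexBody M →
      evol M ≤ (volume (Slab.body v' fun j => szw M (v j))).toReal := by
    intro M hM
    rw [← vol_crd hM.isCompact.measurableSet]
    refine ENNReal.toReal_mono (sz_bdd v' hb _).measure_lt_top.ne (measure_mono ?_)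
    rintro _ ⟨x, hx, rfl⟩ j
    show |crd n x ⬝ᵥ crd n (v j)| ≤ _
    rw [sz_inner]
    exact szw_le hM hx (v j)
  have hWe : evol W = (volume (Slab.body v' 1)).toReal := by
    rw [← vol_crd hW.isCompact.measurableSet, hWi]
    rfl
  have hmain := Slab.body_logconcave v' hb (h := fun j => szw K (v j))
    (k := fun j => szw L (v j)) (fun j => szw_pos hK _) (fun j => szw_pos hL _) hs0 ht0 hst
  have hlast : (volume (Slab.body v' fun j => szw K (v j) ^ s * szw L (v j) ^ t)).toReal ≤
      evol W := by
    rw [hWe]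
    refine ENNReal.toReal_mono hb.measure_lt_top.ne (measure_mono fun x hx j => ?_)
    exact (hx j).trans (hle j)
  have hKp := evol_pos hK
  have hLp := evol_pos hL
  have hWp := evol_pos hW
  have h5 : evol K ^ s * evol L ^ t ≤ evol W := by
    refine le_trans ?_ (hmain.trans hlast)
    exact mul_le_mul (Real.rpow_le_rpow hKp.le (hsub hK) hs0.le)
      (Real.rpow_le_rpow hLp.le (hsub hL) ht0.le) (by positivity) (by positivity)
  have h6 := Real.log_le_log (by positivity) h5
  rwa [Real.log_mul (by positivity) (by positivity), Real.log_rpow hKp, Real.log_rpow hLp] at h6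

end Vale.Agent.P227
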