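import Mathlib

/-!
# P227 / Slab : Ball's one-dimensional inequality
-/

open MeasureTheory Set

namespace Vale.Agent.P227.Slab

open Filter Topology

/-- the pointwise inequality -/
theorem ball_pt {p q A B a b x y : ℝ} (hp : 0 < p) (hq : 0 < q) (hA : 0 < A) (hB : 0 < B)
    (ha : 0 < a) (hb : 0 < b) (hx : 0 < x) (hy : 0 < y) :
    a / (p + q * (A / B)) ≤ (p * y ^ 2 + q * x ^ 2 * (b⁻¹ * (B / A * a))) / (p * y + q * x) ^ 2 *
      (a ^ (p * y / (p * y + q * x)) * b ^ (q * x / (p * y + q * x))) := by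
  set D := p * y + q * x with hD
  have hD0 : 0 < D := by positivity
  set α := p * y / D with hα
  set β := q * x / D with hβ
  have hα0 : 0 ≤ α := by positivity
  have hβ0 : 0 ≤ β := by positivity
  have hαβ : α + β = 1 := by
    rw [hα, hβ, ← add_div, ← hD, div_self hD0.ne']
  have h1 := Real.geom_mean_le_arith_mean2_weighted hα0 hβ0 (p₁ := y / D)
    (p₂ := x / D * (B / A) * (a / b)) (by positivity) (by positivity) hαβ
  have h2 := Real.geom_mean_le_arith_mean2_weighted hα0 hβ0 (p₁ := D / y)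
    (p₂ := D / x * (A / B)) (by positivity) (by positivity) hαβ
  have e1 : α * (y / D) + β * (x / D * (B / A) * (a / b)) =
      (p * y ^ 2 + q * x ^ 2 * (b⁻¹ * (B / A * a))) / D ^ 2 := by
    rw [hα, hβ]; field_simp
  have e2 : α * (D / y) + β * (D / x * (A / B)) = p + q * (A / B) := by
    rw [hα, hβ]; field_simp
  rw [e1] at h1
  rw [e2] at h2
  have hE : 0 < p + q * (A / B) := by positivity
  have hG2 : 0 < (D / y) ^ α * (D / x * (A / B)) ^ β := by positivity
  have e3 : ((y / D) ^ α * (x / D * (B / A) * (a / b)) ^ β) *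
      ((D / y) ^ α * (D / x * (A / B)) ^ β) = (a / b) ^ β := by
    have f1 : (y / D) ^ α * (D / y) ^ α = 1 := by
      rw [← Real.mul_rpow (by positivity) (by positivity)]
      have : y / D * (D / y) = 1 := by field_simp
      rw [this, Real.one_rpow]
    have f2 : (x / D * (B / A) * (a / b)) ^ β * (D / x * (A / B)) ^ β = (a / b) ^ β := by
      rw [← Real.mul_rpow (by positivity) (by positivity)]
      congr 1
      field_simp
    calc _ = ((y / D) ^ α * (D / y) ^ α) *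
          ((x / D * (B / A) * (a / b)) ^ β * (D / x * (A / B)) ^ β) := by ring
      _ = _ := by rw [f1, f2, one_mul]
  have e4 : (a / b) ^ β * (a ^ α * b ^ β) = a := by
    rw [Real.div_rpow ha.le hb.le]
    have hbβ : b ^ β ≠ 0 := (Real.rpow_pos_of_pos hb β).ne'
    have : a ^ β / b ^ β * (a ^ α * b ^ β) = a ^ α * a ^ β := by field_simp
    rw [this, ← Real.rpow_add ha, hαβ, Real.rpow_one]
  have hab : 0 < a ^ α * b ^ β := by positivity
  have key : (a / b) ^ β / (p + q * (A / B)) ≤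
      (y / D) ^ α * (x / D * (B / A) * (a / b)) ^ β := by
    rw [div_le_iff₀ hE, ← e3]
    exact mul_le_mul_of_nonneg_left h2 (by positivity)
  calc a / (p + q * (A / B)) = (a / b) ^ β / (p + q * (A / B)) * (a ^ α * b ^ β) := by
        rw [div_mul_eq_mul_div, e4]
    _ ≤ ((y / D) ^ α * (x / D * (B / A) * (a / b)) ^ β) * (a ^ α * b ^ β) :=
        mul_le_mul_of_nonneg_right key hab.le
    _ ≤ _ := mul_le_mul_of_nonneg_right h1 hab.le

section prim

variable {S : ℝ} {v : ℝ → ℝ}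

theorem ii_sub (iv : IntegrableOn v (Ioo 0 S)) {a b : ℝ} (ha : 0 ≤ a) (hab : a ≤ b)
    (hb : b ≤ S) : IntervalIntegrable v volume a b := by
  rw [intervalIntegrable_iff_integrableOn_Ioo_of_le hab]
  exact iv.mono_set (Ioo_subset_Ioo ha hb)

theorem prim_sm (pv : ∀ y ∈ Ioo 0 S, 0 < v y) (iv : IntegrableOn v (Ioo 0 S)) :
    StrictMonoOn (fun x => ∫ t in (0 : ℝ)..x, v t) (Icc 0 S) := by
  intro a ha b hb hab
  have h1 := intervalIntegral.integral_add_adjacent_intervals (ii_sub iv le_rfl ha.1 ha.2)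
    (ii_sub iv ha.1 hab.le hb.2)
  have h2 : 0 < ∫ t in a..b, v t :=
    intervalIntegral.intervalIntegral_pos_of_pos_on (ii_sub iv ha.1 hab.le hb.2)
      (fun x hx => pv x ⟨ha.1.trans_lt hx.1, hx.2.trans_le hb.2⟩) hab
  show (∫ t in (0 : ℝ)..a, v t) < ∫ t in (0 : ℝ)..b, v t
  linarith

theorem prim_cont (hS : 0 < S) (iv : IntegrableOn v (Ioo 0 S)) :
    ContinuousOn (fun x => ∫ t in (0 : ℝ)..x, v t) (Icc 0 S) := by
  have h := intervalIntegral.continuousOn_primitive_interval (μ := volume) (f := v) (a := 0)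
    (b := S) (by rw [uIcc_of_le hS.le, integrableOn_Icc_iff_integrableOn_Ioo]; exact iv)
  rwa [uIcc_of_le hS.le] at h

theorem prim_deriv (hv : ContinuousOn v (Ioo 0 S)) (iv : IntegrableOn v (Ioo 0 S)) {x : ℝ}
    (hx : x ∈ Ioo 0 S) : HasDerivAt (fun x => ∫ t in (0 : ℝ)..x, v t) (v x) x := by
  refine intervalIntegral.integral_hasDerivAt_right (ii_sub iv le_rfl hx.1.le hx.2.le) ?_
    (hv.continuousAt (Ioo_mem_nhds hx.1 hx.2))
  exact hv.stronglyMeasurableAtFilter isOpen_Ioo x hx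

theorem prim_end (hS : 0 < S) : (∫ t in (0 : ℝ)..S, v t) = ∫ t in Ioo 0 S, v t := by
  rw [intervalIntegral.integral_of_le hS.le, integral_Ioc_eq_integral_Ioo]

theorem prim_inv (hS : 0 < S) (hv : ContinuousOn v (Ioo 0 S)) (pv : ∀ y ∈ Ioo 0 S, 0 < v y)
    (iv : IntegrableOn v (Ioo 0 S)) : ∃ g : ℝ → ℝ,
      (∀ t ∈ Ioo 0 (∫ y in Ioo 0 S, v y), g t ∈ Ioo 0 S) ∧
      StrictMonoOn g (Ioo 0 (∫ y in Ioo 0 S, v y)) ∧
      ∀ t ∈ Ioo 0 (∫ y in Ioo 0 S, v y), HasDerivAt g (v (g t))⁻¹ t := by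
  classical
  set B := ∫ y in Ioo 0 S, v y with hB
  set V : ℝ → ℝ := fun x => ∫ t in (0 : ℝ)..x, v t with hV
  have V0 : V 0 = 0 := by simp [hV]
  have VS : V S = B := prim_end hS
  have sm : StrictMonoOn V (Icc 0 S) := prim_sm pv iv
  have hex : ∀ t, t ∈ Ioo 0 B → ∃ y ∈ Ioo 0 S, V y = t := by
    intro t ht
    have h1 := intermediate_value_Ioo hS.le (prim_cont hS iv)
    have h2 : t ∈ Ioo (V 0) (V S) := by rw [V0, VS]; exact ht
    exact h1 h2
  choose! g hg1 hg2 using hex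
  have smg : StrictMonoOn g (Ioo 0 B) := by
    intro s hs t ht hst
    by_contra hn
    push Not at hn
    have := sm.monotoneOn (Ioo_subset_Icc_self (hg1 t ht)) (Ioo_subset_Icc_self (hg1 s hs)) hn
    rw [hg2 t ht, hg2 s hs] at this
    exact absurd this (not_le.2 hst)
  have img : g '' Ioo 0 B = Ioo 0 S := by
    ext y
    constructor
    · rintro ⟨t, ht, rfl⟩
      exact hg1 t ht
    · intro hy
      have hVy : V y ∈ Ioo 0 B := by
        rw [← V0, ← VS]
        exact ⟨sm (left_mem_Icc.2 hS.le) (Ioo_subset_Icc_self hy) hy.1,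
          sm (Ioo_subset_Icc_self hy) (right_mem_Icc.2 hS.le) hy.2⟩
      refine ⟨V y, hVy, ?_⟩
      exact sm.injOn (Ioo_subset_Icc_self (hg1 _ hVy)) (Ioo_subset_Icc_self hy) (hg2 _ hVy)
  refine ⟨g, hg1, smg, fun t ht => ?_⟩
  have hc : ContinuousAt g t := by
    refine smg.continuousAt_of_image_mem_nhds (Ioo_mem_nhds ht.1 ht.2) ?_
    rw [img]
    exact Ioo_mem_nhds (hg1 t ht).1 (hg1 t ht).2
  refine HasDerivAt.of_local_left_inverse hc (prim_deriv hv iv (hg1 t ht))
    (pv _ (hg1 t ht)).ne' ?_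
  filter_upwards [Ioo_mem_nhds ht.1 ht.2] with s hs
  exact hg2 s hs

end prim

/-- Ball's one-dimensional inequality (exponent one). -/
theorem ball_one {p q R S : ℝ} (hp : 0 < p) (hq : 0 < q) (hpq : p + q = 1) (hR : 0 < R)
    (hS : 0 < S) {u v w : ℝ → ℝ} (hu : ContinuousOn u (Ioo 0 R)) (hv : ContinuousOn v (Ioo 0 S))
    (pu : ∀ x ∈ Ioo 0 R, 0 < u x) (pv : ∀ y ∈ Ioo 0 S, 0 < v y)
    (iu : IntegrableOn u (Ioo 0 R)) (iv : IntegrableOn v (Ioo 0 S))
    (iw : IntegrableOn w (Ioi 0)) (w0 : ∀ z, 0 ≤ w z)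
    (h : ∀ x ∈ Ioo 0 R, ∀ y ∈ Ioo 0 S,
      u x ^ (p * y / (p * y + q * x)) * v y ^ (q * x / (p * y + q * x)) ≤
        w (x * y / (p * y + q * x))) :
    1 / (∫ z in Ioi 0, w z) ≤ p / (∫ x in Ioo 0 R, u x) + q / (∫ y in Ioo 0 S, v y) := by
  obtain ⟨g, hg1, hg2, hg3⟩ := prim_inv hS hv pv iv
  set A := ∫ x in Ioo 0 R, u x with hAdef
  set B := ∫ y in Ioo 0 S, v y with hBdef
  have hA : 0 < A := by
    rw [hAdef, ← prim_end hR]
    exact intervalIntegral.intervalIntegral_pos_of_pos_on (ii_sub iu le_rfl hR.le le_rfl) pu hR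
  have hB : 0 < B := by
    rw [hBdef, ← prim_end hS]
    exact intervalIntegral.intervalIntegral_pos_of_pos_on (ii_sub iv le_rfl hS.le le_rfl) pv hS
  set U : ℝ → ℝ := fun x => ∫ t in (0 : ℝ)..x, u t with hU
  have U0 : U 0 = 0 := by simp [hU]
  have UR : U R = A := prim_end hR
  have smU : StrictMonoOn U (Icc 0 R) := prim_sm pu iu
  have hUx : ∀ x ∈ Ioo 0 R, B / A * U x ∈ Ioo 0 B := by
    intro x hx
    have h1 : 0 < U x := by
      rw [← U0]
      exact smU (left_mem_Icc.2 hR.le) (Ioo_subset_Icc_self hx) hx.1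
    have h2 : U x < A := by
      rw [← UR]
      exact smU (Ioo_subset_Icc_self hx) (right_mem_Icc.2 hR.le) hx.2
    refine ⟨by positivity, ?_⟩
    calc B / A * U x < B / A * A := mul_lt_mul_of_pos_left h2 (by positivity)
      _ = B := by field_simp
  set Y : ℝ → ℝ := fun x => g (B / A * U x) with hY
  have hY1 : ∀ x ∈ Ioo 0 R, Y x ∈ Ioo 0 S := fun x hx => hg1 _ (hUx x hx)
  have smY : StrictMonoOn Y (Ioo 0 R) := by
    intro a ha b hb hab
    refine hg2 (hUx a ha) (hUx b hb) ?_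
    exact mul_lt_mul_of_pos_left (smU (Ioo_subset_Icc_self ha) (Ioo_subset_Icc_self hb) hab)
      (by positivity)
  have dY : ∀ x ∈ Ioo 0 R, HasDerivAt Y ((v (Y x))⁻¹ * (B / A * u x)) x := by
    intro x hx
    have h1 : HasDerivAt (fun x => B / A * U x) (B / A * u x) x :=
      (prim_deriv hu iu hx).const_mul _
    exact (hg3 _ (hUx x hx)).comp x h1
  set ρ : ℝ → ℝ := fun x => x * Y x / (p * Y x + q * x) with hρ
  set ρ' : ℝ → ℝ := fun x => (p * Y x ^ 2 + q * x ^ 2 * ((v (Y x))⁻¹ * (B / A * u x))) /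
    (p * Y x + q * x) ^ 2 with hρ'
  have dρ : ∀ x ∈ Ioo 0 R, HasDerivAt ρ (ρ' x) x := by
    intro x hx
    have hx0 : 0 < x := hx.1
    have hy0 : 0 < Y x := (hY1 x hx).1
    have hD : p * Y x + q * x ≠ 0 := by positivity
    have h1 : HasDerivAt (fun x => x * Y x)
        (1 * Y x + x * ((v (Y x))⁻¹ * (B / A * u x))) x := (hasDerivAt_id' x).mul (dY x hx)
    have h2 : HasDerivAt (fun x => p * Y x + q * x)
        (p * ((v (Y x))⁻¹ * (B / A * u x)) + q * 1) x :=
      ((dY x hx).const_mul p).add ((hasDerivAt_id' x).const_mul q)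
    have h3 : HasDerivAt ρ (((1 * Y x + x * ((v (Y x))⁻¹ * (B / A * u x))) *
        (p * Y x + q * x) - x * Y x * (p * ((v (Y x))⁻¹ * (B / A * u x)) + q * 1)) /
        (p * Y x + q * x) ^ 2) x := h1.div h2 hD
    refine h3.congr_deriv ?_
    show _ = (p * Y x ^ 2 + q * x ^ 2 * ((v (Y x))⁻¹ * (B / A * u x))) / (p * Y x + q * x) ^ 2
    congr 1
    ring
  have smρ : StrictMonoOn ρ (Ioo 0 R) := by
    intro a ha b hb hab
    have ha0 : 0 < a := ha.1
    have hb0 : 0 < b := hb.1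
    have hya : 0 < Y a := (hY1 a ha).1
    have hyb : 0 < Y b := (hY1 b hb).1
    have hy := smY ha hb hab
    show a * Y a / (p * Y a + q * a) < b * Y b / (p * Y b + q * b)
    rw [div_lt_div_iff₀ (by positivity) (by positivity)]
    have e : b * Y b * (p * Y a + q * a) - a * Y a * (p * Y b + q * b) =
        p * (Y a * Y b * (b - a)) + q * (a * b * (Y b - Y a)) := by ring
    have h1 : 0 < p * (Y a * Y b * (b - a)) := by
      have := sub_pos.2 hab
      positivity
    have h2 : 0 < q * (a * b * (Y b - Y a)) := by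
      have := sub_pos.2 hy
      positivity
    linarith
  have hρpos : ∀ x ∈ Ioo 0 R, 0 < ρ x := by
    intro x hx
    have hx0 : 0 < x := hx.1
    have hy0 : 0 < Y x := (hY1 x hx).1
    show 0 < x * Y x / (p * Y x + q * x)
    positivity
  have hρ'pos : ∀ x ∈ Ioo 0 R, 0 < ρ' x := by
    intro x hx
    have hx0 : 0 < x := hx.1
    have hy0 : 0 < Y x := (hY1 x hx).1
    have h1 := pu x hx
    have h2 := pv _ (hY1 x hx)
    show 0 < (p * Y x ^ 2 + q * x ^ 2 * ((v (Y x))⁻¹ * (B / A * u x))) /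
      (p * Y x + q * x) ^ 2
    positivity
  have himg : ρ '' Ioo 0 R ⊆ Ioi 0 := by
    rintro _ ⟨x, hx, rfl⟩
    exact hρpos x hx
  have hw1 : ∫ z in ρ '' Ioo 0 R, w z ≤ ∫ z in Ioi 0, w z :=
    setIntegral_mono_set iw (ae_of_all _ w0) (ae_of_all _ himg)
  have hcv := integral_image_eq_integral_abs_deriv_smul measurableSet_Ioo
    (fun x hx => (dρ x hx).hasDerivWithinAt) smρ.injOn w
  have hint : IntegrableOn (fun x => |ρ' x| • w (ρ x)) (Ioo 0 R) :=
    (integrableOn_image_iff_integrableOn_abs_deriv_smul measurableSet_Ioo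
      (fun x hx => (dρ x hx).hasDerivWithinAt) smρ.injOn w).1 (iw.mono_set himg)
  have hE : 0 < p + q * (A / B) := by positivity
  have hlow : ∫ x in Ioo 0 R, u x / (p + q * (A / B)) ≤ ∫ x in Ioo 0 R, |ρ' x| • w (ρ x) := by
    refine setIntegral_mono_on (iu.div_const _) hint measurableSet_Ioo fun x hx => ?_
    rw [abs_of_pos (hρ'pos x hx), smul_eq_mul]
    refine (ball_pt hp hq hA hB (pu x hx) (pv _ (hY1 x hx)) hx.1 (hY1 x hx).1).trans ?_
    exact mul_le_mul_of_nonneg_left (h x hx _ (hY1 x hx)) (hρ'pos x hx).le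
  rw [integral_div, ← hAdef, ← hcv] at hlow
  have hfin : A / (p + q * (A / B)) ≤ ∫ z in Ioi 0, w z := hlow.trans hw1
  have e : p / A + q / B = 1 / (A / (p + q * (A / B))) := by
    field_simp
  rw [e]
  exact one_div_le_one_div_of_le (by positivity) hfin

end Vale.Agent.P227.Slab
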