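import Vale.Agent.P227.Slab.Sec

/-!
# P227 / Slab : Busemann's theorem for slabs in the cube
-/

open MeasureTheory Set

namespace Vale.Agent.P227.Slab

open scoped Matrix

/-- The part of the cube `[-1,1]^n` in the slab `|y.a| ≤ a0`. -/
def slab {n : ℕ} (a0 : ℝ) (a : Fin n → ℝ) : Set (Fin n → ℝ) :=
  {y | (∀ j, |y j| ≤ 1) ∧ |y ⬝ᵥ a| ≤ a0}

lemma slab_isCompact {n : ℕ} (a0 : ℝ) (a : Fin n → ℝ) : IsCompact (slab a0 a) := by
  refine (isCompact_Icc (a := fun _ : Fin n => (-1 : ℝ)) (b := fun _ => 1)).of_isClosed_subset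
    ?_ ?_
  · have h1 : IsClosed {y : Fin n → ℝ | ∀ j, |y j| ≤ 1} := by
      simp only [setOf_forall]
      exact isClosed_iInter fun j => isClosed_le (continuous_apply j).abs continuous_const
    have h2 : IsClosed {y : Fin n → ℝ | |y ⬝ᵥ a| ≤ a0} := by
      refine isClosed_le ?_ continuous_const
      unfold dotProduct
      fun_prop
    exact h1.inter h2
  · intro y hy
    exact ⟨fun j => (abs_le.1 (hy.1 j)).1, fun j => (abs_le.1 (hy.1 j)).2⟩

lemma slab_conv {n : ℕ} (a0 : ℝ) (a : Fin n → ℝ) : Convex ℝ (slab a0 a) := by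
  intro y hy z hz s t hs ht hst
  have key : ∀ {b c r : ℝ}, |b| ≤ r → |c| ≤ r → |s * b + t * c| ≤ r := by
    intro b c r hb hc
    calc |s * b + t * c| ≤ |s * b| + |t * c| := abs_add_le _ _
      _ = s * |b| + t * |c| := by rw [abs_mul, abs_mul, abs_of_nonneg hs, abs_of_nonneg ht]
      _ ≤ s * r + t * r := add_le_add (mul_le_mul_of_nonneg_left hb hs)
          (mul_le_mul_of_nonneg_left hc ht)
      _ = r := by rw [← add_mul, hst, one_mul]
  refine ⟨fun j => ?_, ?_⟩
  · simpa using key (hy.1 j) (hz.1 j)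
  · rw [add_dotProduct, smul_dotProduct, smul_dotProduct]
    exact key hy.2 hz.2

lemma slab_symm {n : ℕ} (a0 : ℝ) (a : Fin n → ℝ) : ∀ x ∈ slab a0 a, -x ∈ slab a0 a := by
  intro x hx
  refine ⟨fun j => ?_, ?_⟩
  · rw [Pi.neg_apply, abs_neg]
    exact hx.1 j
  · rw [neg_dotProduct, abs_neg]
    exact hx.2

lemma slab_volume_ne {n : ℕ} {a0 : ℝ} (ha : 0 < a0) (a : Fin n → ℝ) :
    volume (slab a0 a) ≠ 0 := by
  have ho : IsOpen {y : Fin n → ℝ | (∀ j, |y j| < 1) ∧ |y ⬝ᵥ a| < a0} := by
    have h1 : IsOpen {y : Fin n → ℝ | ∀ j, |y j| < 1} := by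
      simp only [setOf_forall]
      exact isOpen_iInter_of_finite fun j => isOpen_lt (continuous_apply j).abs continuous_const
    have h2 : IsOpen {y : Fin n → ℝ | |y ⬝ᵥ a| < a0} := by
      refine isOpen_lt ?_ continuous_const
      unfold dotProduct
      fun_prop
    exact h1.inter h2
  have hne : ({y : Fin n → ℝ | (∀ j, |y j| < 1) ∧ |y ⬝ᵥ a| < a0}).Nonempty := by
    refine ⟨0, fun j => by simp, ?_⟩
    rw [zero_dotProduct, abs_zero]
    exact ha
  have h3 := ho.measure_pos volume hne
  refine (h3.trans_le (measure_mono ?_)).ne'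
  intro y hy
  exact ⟨fun j => (hy.1 j).le, hy.2.le⟩

/-- A linear automorphism whose zeroth coordinate is a given nonzero functional. -/
lemma exists_coord {m : ℕ} (w : Fin (m + 1) → ℝ) (hw : w ≠ 0) :
    ∃ T : (Fin (m + 1) → ℝ) →ₗ[ℝ] (Fin (m + 1) → ℝ), LinearMap.det T ≠ 0 ∧
      ∀ y, T y 0 = y ⬝ᵥ w := by
  obtain ⟨i, hi⟩ := Function.ne_iff.1 hw
  rw [Pi.zero_apply] at hi
  let T : (Fin (m + 1) → ℝ) →ₗ[ℝ] (Fin (m + 1) → ℝ) :=
    { toFun := fun y j => if j = 0 then y ⬝ᵥ w else y (Equiv.swap 0 i j)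
      map_add' := by
        intro y z
        funext j
        by_cases hj : j = 0
        · simp [hj, add_dotProduct]
        · simp [hj]
      map_smul' := by
        intro c y
        funext j
        by_cases hj : j = 0
        · simp [hj, smul_dotProduct]
        · simp [hj] }
  have hT : ∀ y j, T y j = if j = 0 then y ⬝ᵥ w else y (Equiv.swap 0 i j) := fun _ _ => rfl
  refine ⟨T, ?_, fun y => by rw [hT, if_pos rfl]⟩
  have hinj : Function.Injective T := by
    rw [injective_iff_map_eq_zero]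
    intro y hy
    have h1 : ∀ k, k ≠ i → y k = 0 := by
      intro k hk
      have h2 : Equiv.swap 0 i k ≠ 0 := by
        intro h3
        apply hk
        have h4 : Equiv.swap 0 i (Equiv.swap 0 i k) = Equiv.swap 0 i 0 := by rw [h3]
        rwa [Equiv.swap_apply_self, Equiv.swap_apply_left] at h4
      have h5 := congrFun hy (Equiv.swap 0 i k)
      rwa [hT, if_neg h2, Equiv.swap_apply_self] at h5
    have h6 := congrFun hy 0
    rw [hT, if_pos rfl, dotProduct, Finset.sum_eq_single i (fun k _ hk => by rw [h1 k hk, zero_mul])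
      (fun h => absurd (Finset.mem_univ i) h)] at h6
    have h7 : y i = 0 := (mul_eq_zero.1 h6).resolve_right hi
    funext k
    by_cases hk : k = i
    · rw [hk]; exact h7
    · exact h1 k hk
  have := (LinearEquiv.ofInjectiveEndo T hinj).isUnit_det'
  exact this.ne_zero

/-- Busemann's theorem: `a0 / |slab a0 a|` is convex. -/
theorem slab_convex {n : ℕ} {a0 b0 : ℝ} (ha : 0 < a0) (hb : 0 < b0) (a b : Fin n → ℝ) {p q : ℝ}
    (hp : 0 < p) (hq : 0 < q) (hpq : p + q = 1) :
    (p * a0 + q * b0) / (volume (slab (p * a0 + q * b0) (p • a + q • b))).toReal ≤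
      p * (a0 / (volume (slab a0 a)).toReal) + q * (b0 / (volume (slab b0 b)).toReal) := by
  have hc0 : 0 < p * a0 + q * b0 := by positivity
  have hpos : ∀ {n : ℕ} {r : ℝ} (_ : 0 < r) (v : Fin n → ℝ), 0 < (volume (slab r v)).toReal :=
    fun hr v => ENNReal.toReal_pos (slab_volume_ne hr v) (slab_isCompact _ v).measure_ne_top
  by_cases hw : b - (b0 / a0) • a = 0
  · -- proportional case
    have hba : b = (b0 / a0) • a := sub_eq_zero.1 hw
    have e : ∀ {r : ℝ} (_ : 0 < r), slab (r * a0) (r • a) = slab a0 a := by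
      intro r hr
      ext y
      simp only [slab, mem_setOf_eq, dotProduct_smul, smul_eq_mul, abs_mul, abs_of_pos hr]
      rw [mul_le_mul_iff_right₀ hr]
    have e1 : slab b0 b = slab a0 a := by
      rw [hba, ← e (r := b0 / a0) (by positivity), div_mul_cancel₀ _ ha.ne']
    have e2 : slab (p * a0 + q * b0) (p • a + q • b) = slab a0 a := by
      have h1 : p • a + q • b = ((p * a0 + q * b0) / a0) • a := by
        rw [hba, smul_smul, ← add_smul]
        congr 1
        field_simp
      rw [h1, ← e (r := (p * a0 + q * b0) / a0) (by positivity), div_mul_cancel₀ _ ha.ne']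
    rw [e1, e2]
    have := hpos ha a
    apply le_of_eq
    field_simp
  · -- general case
    obtain ⟨i, -⟩ := Function.ne_iff.1 hw
    obtain ⟨m, rfl⟩ : ∃ m, n = m + 1 := ⟨n - 1, by have := i.pos; omega⟩
    obtain ⟨T, hdet, hT⟩ := exists_coord _ hw
    set w := b - (b0 / a0) • a with hwdef
    have hD : 0 < |LinearMap.det T| := abs_pos.2 hdet
    have hvol : ∀ S : Set (Fin (m + 1) → ℝ), (volume (T '' S)).toReal =
        |LinearMap.det T| * (volume S).toReal := by
      intro S
      rw [Measure.addHaar_image_linearMap, ENNReal.toReal_mul, ENNReal.toReal_ofReal hD.le]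
    have hne : ∀ {r : ℝ} (_ : 0 < r) (v : Fin (m + 1) → ℝ), volume (T '' slab r v) ≠ 0 := by
      intro r hr v h0
      have h1 := hvol (slab r v)
      rw [h0, ENNReal.toReal_zero] at h1
      exact absurd h1 (mul_pos hD (hpos hr v)).ne
    have hcont : Continuous T := T.continuous_of_finiteDimensional
    have hsym : ∀ {r : ℝ} (v : Fin (m + 1) → ℝ), ∀ x ∈ T '' slab r v, -x ∈ T '' slab r v := by
      rintro r v _ ⟨x, hx, rfl⟩
      exact ⟨-x, slab_symm _ _ x hx, map_neg T x⟩
    have hP : 0 < p * a0 / (p * a0 + q * b0) := by positivity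
    have hQ : 0 < q * b0 / (p * a0 + q * b0) := by positivity
    have hPQ : p * a0 / (p * a0 + q * b0) + q * b0 / (p * a0 + q * b0) = 1 := by
      rw [← add_div, div_self hc0.ne']
    have key := sec_ball (A := T '' slab a0 a) (B := T '' slab b0 b)
      (C := T '' slab (p * a0 + q * b0) (p • a + q • b))
      ((slab_conv _ _).linear_image T) ((slab_conv _ _).linear_image T)
      ((slab_isCompact _ _).image hcont) ((slab_isCompact _ _).image hcont)
      ((slab_isCompact _ _).image hcont) (hsym _) (hsym _) (hsym _) (hne ha a) (hne hb b)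
      hP hQ hPQ ?_
    · rw [hvol, hvol, hvol] at key
      have hVa := hpos ha a
      have hVb := hpos hb b
      have hVc := hpos hc0 (p • a + q • b)
      have h1 := mul_le_mul_of_nonneg_left key
        (mul_pos hc0 hD).le
      refine le_trans (le_of_eq ?_) (h1.trans (le_of_eq ?_))
      · field_simp
      · field_simp
    · intro x y hx hy a' ha' b' hb'
      obtain ⟨ξ, hξ, hξT⟩ := ha'
      obtain ⟨η, hη, hηT⟩ := hb'
      set P := p * a0 / (p * a0 + q * b0) with hPdef
      set Q := q * b0 / (p * a0 + q * b0) with hQdef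
      have hden : 0 < P * y + Q * x := by positivity
      set α := P * y / (P * y + Q * x) with hα
      set β := Q * x / (P * y + Q * x) with hβ
      have hα0 : 0 ≤ α := by positivity
      have hβ0 : 0 ≤ β := by positivity
      have hαβ : α + β = 1 := by rw [hα, hβ, ← add_div, div_self hden.ne']
      have hx1 : ξ ⬝ᵥ w = x := by rw [← hT, hξT, Fin.cons_zero]
      have hy1 : η ⬝ᵥ w = y := by rw [← hT, hηT, Fin.cons_zero]
      have hz : α * x + β * y = x * y / (P * y + Q * x) := by
        have : α * x + β * y = x * y * (P + Q) / (P * y + Q * x) := by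
          rw [hα, hβ]
          field_simp
        rw [this, hPQ, mul_one]
      refine ⟨α • ξ + β • η, ⟨fun j => ?_, ?_⟩, ?_⟩
      · have h1 := hξ.1 j
        have h2 := hη.1 j
        rw [abs_le] at h1 h2 ⊢
        simp only [Pi.add_apply, Pi.smul_apply, smul_eq_mul]
        constructor <;> nlinarith
      · have h1 := hξ.2
        have h2 := hη.2
        have e1 : ξ ⬝ᵥ w = ξ ⬝ᵥ b - b0 / a0 * (ξ ⬝ᵥ a) := by
          rw [hwdef, dotProduct_sub, dotProduct_smul, smul_eq_mul]
        have e2 : η ⬝ᵥ w = η ⬝ᵥ b - b0 / a0 * (η ⬝ᵥ a) := by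
          rw [hwdef, dotProduct_sub, dotProduct_smul, smul_eq_mul]
        have e3 : (α • ξ + β • η) ⬝ᵥ (p • a + q • b) =
            (p * a0 + q * b0) * (α * (ξ ⬝ᵥ a / a0) + β * (η ⬝ᵥ b / b0)) := by
          rw [add_dotProduct, dotProduct_add, dotProduct_add]
          simp only [smul_dotProduct, dotProduct_smul, smul_eq_mul]
          have f1 : ξ ⬝ᵥ b = x + b0 / a0 * (ξ ⬝ᵥ a) := by linarith
          have f2 : η ⬝ᵥ a = a0 / b0 * (η ⬝ᵥ b - y) := by
            have : b0 / a0 * (η ⬝ᵥ a) = η ⬝ᵥ b - y := by linarith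
            rw [← this]
            field_simp
          rw [f1, f2]
          have f3 : q * α * x = p * β * (a0 / b0) * y := by
            rw [hα, hβ, hPdef, hQdef]
            field_simp
          have f4 : (p * a0 + q * b0) * (α * (ξ ⬝ᵥ a / a0) + β * (η ⬝ᵥ b / b0)) =
              p * α * (ξ ⬝ᵥ a) + q * α * (b0 / a0 * (ξ ⬝ᵥ a)) + p * β * (a0 / b0 * (η ⬝ᵥ b))
                + q * β * (η ⬝ᵥ b) := by
            field_simp
            ring
          rw [f4]
          linear_combination f3
        rw [e3, abs_mul, abs_of_pos hc0]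
        have h3 : |α * (ξ ⬝ᵥ a / a0) + β * (η ⬝ᵥ b / b0)| ≤ 1 := by
          have g1 : |ξ ⬝ᵥ a / a0| ≤ 1 := by
            rw [abs_div, abs_of_pos ha]
            exact (div_le_one ha).2 h1
          have g2 : |η ⬝ᵥ b / b0| ≤ 1 := by
            rw [abs_div, abs_of_pos hb]
            exact (div_le_one hb).2 h2
          rw [abs_le] at g1 g2 ⊢
          constructor <;> nlinarith
        calc (p * a0 + q * b0) * |α * (ξ ⬝ᵥ a / a0) + β * (η ⬝ᵥ b / b0)| ≤
              (p * a0 + q * b0) * 1 := mul_le_mul_of_nonneg_left h3 hc0.le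
          _ = _ := mul_one _
      · rw [map_add, map_smul, map_smul, hξT, hηT]
        funext j
        refine Fin.cases ?_ (fun k => ?_) j
        · simp only [Pi.add_apply, Pi.smul_apply, Fin.cons_zero, smul_eq_mul]
          exact hz
        · simp only [Pi.add_apply, Pi.smul_apply, Fin.cons_succ, smul_eq_mul]

end Vale.Agent.P227.Slab
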