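import Vale.Agent.P227.T1.Refl
import Vale.Agent.P227.PL

/-!
# P227 / Slab : a symmetric body loses volume at most proportionally to the width of a slab
-/

open MeasureTheory Set

namespace Vale.Agent.P227.Slab

open scoped Matrix ENNReal
open Vale.Agent.P227.T1

theorem mono_scale {c : ℝ} (hc : 0 < c) {φ : ℝ → ℝ≥0∞} (hφ : Measurable φ) :
    ∫⁻ a, φ a = ENNReal.ofReal c * ∫⁻ a, φ (c * a) := by
  have h := Real.smul_map_volume_mul_left hc.ne'
  rw [abs_of_pos hc] at h
  calc ∫⁻ a, φ a = ∫⁻ a, φ a ∂(ENNReal.ofReal c • Measure.map (c * ·) volume) := by rw [h]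
    _ = _ := by
      rw [lintegral_smul_measure, lintegral_map hφ (measurable_const_mul c)]
      rfl

theorem mono_sec_neg {m : ℕ} {K : Set (Fin (m + 1) → ℝ)} (kK : IsCompact K)
    (sK : ∀ x ∈ K, -x ∈ K) (b : ℝ) : volume (sec K (-b)) = volume (sec K b) := by
  have h1 : sec K (-b) = Neg.neg ⁻¹' (sec K b) := by
    have h2 : ∀ (c : ℝ) (x : Fin m → ℝ), x ∈ sec K c → -x ∈ sec K (-c) := by
      intro c x hx
      have h3 := sK _ hx
      change (Fin.cons (-c) (-x) : Fin (m + 1) → ℝ) ∈ K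
      convert h3 using 1
      funext i
      refine Fin.cases ?_ (fun j => ?_) i
      · simp
      · simp
    ext x
    constructor
    · intro hx
      have := h2 _ _ hx
      rwa [neg_neg] at this
    · intro hx
      have := h2 _ _ hx
      rwa [neg_neg] at this
  rw [h1]
  exact (Measure.measurePreserving_neg (volume : Measure (Fin m → ℝ))).measure_preimage
    (sec_isCompact kK b).measurableSet.nullMeasurableSet

theorem mono_sec {m : ℕ} {K : Set (Fin (m + 1) → ℝ)} (cK : Convex ℝ K) (kK : IsCompact K)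
    (sK : ∀ x ∈ K, -x ∈ K) {c : ℝ} (hc : 1 ≤ c) (a : ℝ) :
    volume (sec K (c * a)) ≤ volume (sec K a) := by
  rcases hc.eq_or_lt with rfl | hc1
  · rw [one_mul]
  have hc0 : 0 < c := by linarith
  have hci : 0 < 1 / c := by positivity
  have hc2 : 1 / c < 1 := by rw [div_lt_one hc0]; exact hc1
  set l : ℝ := (1 + 1 / c) / 2 with hl
  have hl0 : 0 < l := by rw [hl]; linarith
  have hl1 : 0 < 1 - l := by rw [hl]; linarith
  have h := bm_mul (s := l) (t := 1 - l) hl0 hl1 (by ring) (A := sec K (c * a))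
    (B := sec K (-(c * a))) (C := sec K a) (sec_isCompact kK _).measurableSet
    (sec_isCompact kK _).measurableSet (sec_isCompact kK _).measurableSet (by
      intro x hx y hy
      have h1 := cK hx hy hl0.le hl1.le (by ring)
      change (Fin.cons a (l • x + (1 - l) • y) : Fin (m + 1) → ℝ) ∈ K
      convert h1 using 1
      funext i
      refine Fin.cases ?_ (fun j => ?_) i
      · simp only [Fin.cons_zero, Pi.add_apply, Pi.smul_apply, smul_eq_mul]
        have h2 : (2 * l - 1) * c = 1 := by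
          rw [hl]
          field_simp
          ring
        linear_combination (-a) * h2
      · simp)
  rw [mono_sec_neg kK sK, ← ENNReal.rpow_add_of_nonneg _ _ hl0.le hl1.le, add_sub_cancel,
    ENNReal.rpow_one] at h
  exact h

theorem mono_vol {m : ℕ} {K : Set (Fin (m + 1) → ℝ)} (kK : IsCompact K) (s : ℝ) :
    volume (K ∩ {x | |x 0| ≤ s}) = ∫⁻ a, ({a : ℝ | |a| ≤ s}.indicator fun a => volume (sec K a)) a := by
  have hm : MeasurableSet {x : Fin (m + 1) → ℝ | |x 0| ≤ s} := by
    refine measurableSet_le ?_ measurable_const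
    exact (continuous_abs.comp (continuous_apply 0)).measurable
  rw [volume_sec (kK.measurableSet.inter hm)]
  apply lintegral_congr
  intro a
  by_cases ha : |a| ≤ s
  · rw [indicator_of_mem (by exact ha)]
    congr 1
    ext x
    simp [sec, ha]
  · rw [indicator_of_notMem (by exact ha)]
    have : sec (K ∩ {x | |x 0| ≤ s}) a = ∅ := by
      ext x
      simp [sec, ha]
    rw [this, measure_empty]

theorem mono_coord {m : ℕ} {K : Set (Fin (m + 1) → ℝ)} (cK : Convex ℝ K) (kK : IsCompact K)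
    (sK : ∀ x ∈ K, -x ∈ K) {r s : ℝ} (hr : 0 < r) (hrs : r ≤ s) :
    volume (K ∩ {x | |x 0| ≤ s}) ≤ ENNReal.ofReal (s / r) * volume (K ∩ {x | |x 0| ≤ r}) := by
  have hs : 0 < s := lt_of_lt_of_le hr hrs
  have hc : 1 ≤ s / r := by rw [one_le_div hr]; exact hrs
  have hm : MeasurableSet {a : ℝ | |a| ≤ s} :=
    measurableSet_le continuous_abs.measurable measurable_const
  rw [mono_vol kK, mono_vol kK,
    mono_scale (c := s / r) (by positivity) ((measurable_sec kK.measurableSet).indicator hm)]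
  gcongr with a
  by_cases ha : |a| ≤ r
  · have h1 : |s / r * a| ≤ s := by
      rw [abs_mul, abs_of_pos (by positivity)]
      calc s / r * |a| ≤ s / r * r := by gcongr
        _ = s := by field_simp
    rw [indicator_of_mem (by exact h1), indicator_of_mem (by exact ha)]
    exact mono_sec cK kK sK hc a
  · have h1 : ¬ |s / r * a| ≤ s := by
      rw [abs_mul, abs_of_pos (by positivity)]
      intro h2
      apply ha
      have h3 : s / r * |a| ≤ s / r * r := by
        calc s / r * |a| ≤ s := h2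
          _ = s / r * r := by field_simp
      exact le_of_mul_le_mul_left h3 (by positivity)
    rw [indicator_of_notMem (by exact h1)]
    exact zero_le

/-- a linear map whose zeroth coordinate is the given functional -/
def monoMap {m : ℕ} (f : Fin (m + 1) → ℝ) (i : Fin (m + 1)) :
    (Fin (m + 1) → ℝ) →ₗ[ℝ] (Fin (m + 1) → ℝ) where
  toFun x := fun j => if j = 0 then x ⬝ᵥ f else x (Equiv.swap 0 i j)
  map_add' x y := by
    funext j
    by_cases hj : j = 0
    · simp [hj, add_dotProduct]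
    · simp [hj]
  map_smul' c x := by
    funext j
    by_cases hj : j = 0
    · simp [hj, smul_dotProduct]
    · simp [hj]

theorem monoMap_zero {m : ℕ} (f : Fin (m + 1) → ℝ) (i : Fin (m + 1)) (x : Fin (m + 1) → ℝ) :
    monoMap f i x 0 = x ⬝ᵥ f := by
  change (if (0 : Fin (m + 1)) = 0 then x ⬝ᵥ f else x (Equiv.swap 0 i 0)) = x ⬝ᵥ f
  rw [if_pos rfl]

theorem monoMap_inj {m : ℕ} (f : Fin (m + 1) → ℝ) (i : Fin (m + 1)) (hi : f i ≠ 0) :
    Function.Injective (monoMap f i) := by
  rw [injective_iff_map_eq_zero]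
  intro x hx
  have h1 : ∀ k, k ≠ i → x k = 0 := by
    intro k hk
    have h2 := congrFun hx (Equiv.swap 0 i k)
    have h3 : Equiv.swap 0 i k ≠ 0 := by
      intro h4
      apply hk
      have h5 := congrArg (Equiv.swap 0 i) h4
      rw [Equiv.swap_apply_self, Equiv.swap_apply_left] at h5
      exact h5
    change (if Equiv.swap 0 i k = 0 then x ⬝ᵥ f else x (Equiv.swap 0 i (Equiv.swap 0 i k))) = 0
      at h2
    rwa [if_neg h3, Equiv.swap_apply_self] at h2
  have h6 : x ⬝ᵥ f = 0 := by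
    rw [← monoMap_zero f i, hx]
    rfl
  have h7 : x ⬝ᵥ f = x i * f i := by
    unfold dotProduct
    rw [Finset.sum_eq_single i]
    · intro k _ hk
      rw [h1 k hk, zero_mul]
    · intro h
      exact absurd (Finset.mem_univ i) h
  funext k
  by_cases hk : k = i
  · rw [hk]
    rw [h7] at h6
    rcases mul_eq_zero.1 h6 with h | h
    · exact h
    · exact absurd h hi
  · exact h1 k hk

/-- `|K ∩ {|x.f| ≤ r}| / r` is nonincreasing in `r`. -/
theorem mono_width {n : ℕ} {K : Set (Fin n → ℝ)} (cK : Convex ℝ K) (kK : IsCompact K)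
    (sK : ∀ x ∈ K, -x ∈ K) (f : Fin n → ℝ) {r s : ℝ} (hr : 0 < r) (hrs : r ≤ s) :
    r * (volume (K ∩ {x | |x ⬝ᵥ f| ≤ s})).toReal ≤
      s * (volume (K ∩ {x | |x ⬝ᵥ f| ≤ r})).toReal := by
  have hs : 0 < s := lt_of_lt_of_le hr hrs
  by_cases hf : f = 0
  · have h1 : ∀ t : ℝ, 0 < t → K ∩ {x | |x ⬝ᵥ f| ≤ t} = K := by
      intro t ht
      ext x
      simp [hf, ht.le]
    rw [h1 r hr, h1 s hs]
    exact mul_le_mul_of_nonneg_right hrs ENNReal.toReal_nonneg
  obtain ⟨i, hi⟩ : ∃ i, f i ≠ 0 := by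
    by_contra h
    push Not at h
    exact hf (funext h)
  obtain ⟨m, rfl⟩ : ∃ m, n = m + 1 := ⟨n - 1, by have := i.pos; omega⟩
  set L := monoMap f i with hL
  have hinj := monoMap_inj f i hi
  have hdet : LinearMap.det L ≠ 0 := by
    have h1 := (LinearEquiv.ofInjectiveEndo L hinj).isUnit_det'
    have h2 : ((LinearEquiv.ofInjectiveEndo L hinj : (Fin (m + 1) → ℝ) ≃ₗ[ℝ] (Fin (m + 1) → ℝ)) :
        (Fin (m + 1) → ℝ) →ₗ[ℝ] (Fin (m + 1) → ℝ)) = L := by
      ext x
      simp
    rw [h2] at h1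
    exact h1.ne_zero
  have hK' : IsCompact (L '' K) := kK.image (LinearMap.continuous_of_finiteDimensional L)
  have cK' : Convex ℝ (L '' K) := cK.linear_image L
  have sK' : ∀ x ∈ L '' K, -x ∈ L '' K := by
    rintro _ ⟨x, hx, rfl⟩
    exact ⟨-x, sK x hx, map_neg L x⟩
  have himg : ∀ t : ℝ, L '' (K ∩ {x | |x ⬝ᵥ f| ≤ t}) = (L '' K) ∩ {x | |x 0| ≤ t} := by
    intro t
    have h1 : {x : Fin (m + 1) → ℝ | |x ⬝ᵥ f| ≤ t} = L ⁻¹' {x | |x 0| ≤ t} := by
      ext x
      rw [mem_preimage, mem_ofPred_eq, mem_ofPred_eq, hL, monoMap_zero]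
    rw [h1, image_inter_preimage]
  have key := mono_coord cK' hK' sK' hr hrs
  rw [← himg, ← himg, Measure.addHaar_image_linearMap, Measure.addHaar_image_linearMap] at key
  have hfin : ∀ t : ℝ, volume (K ∩ {x | |x ⬝ᵥ f| ≤ t}) ≠ ∞ := fun t =>
    ((measure_mono inter_subset_left).trans_lt kK.measure_lt_top).ne
  have h2 := ENNReal.toReal_mono (by finiteness [hfin r]) key
  rw [ENNReal.toReal_mul, ENNReal.toReal_mul, ENNReal.toReal_mul,
    ENNReal.toReal_ofReal (abs_nonneg _), ENNReal.toReal_ofReal (by positivity)] at h2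
  have hd : 0 < |LinearMap.det L| := abs_pos.2 hdet
  have h3 : (volume (K ∩ {x | |x ⬝ᵥ f| ≤ s})).toReal ≤
      s / r * (volume (K ∩ {x | |x ⬝ᵥ f| ≤ r})).toReal := by
    refine le_of_mul_le_mul_left ?_ hd
    calc _ ≤ _ := h2
      _ = _ := by ring
  calc r * (volume (K ∩ {x | |x ⬝ᵥ f| ≤ s})).toReal
      ≤ r * (s / r * (volume (K ∩ {x | |x ⬝ᵥ f| ≤ r})).toReal) :=
        mul_le_mul_of_nonneg_left h3 hr.le
    _ = _ := by field_simp

end Vale.Agent.P227.Slab
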