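import Vale.Agent.P227.Slab.Conv
import Vale.Agent.P227.Slab.Mono

/-!
# P227 / Slab : the logarithmic inequality for `n + 1` slabs in `R^n`
-/

open MeasureTheory Set

namespace Vale.Agent.P227.Slab

open scoped Matrix

/-- Intersection of `n + 1` slabs. -/
def body {n : ℕ} (v : Fin (n + 1) → Fin n → ℝ) (h : Fin (n + 1) → ℝ) : Set (Fin n → ℝ) :=
  {x | ∀ j, |x ⬝ᵥ v j| ≤ h j}

/-- coordinates given by all vectors but one -/
noncomputable def lvMap {n : ℕ} (v : Fin (n + 1) → Fin n → ℝ) (i : Fin (n + 1)) :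
    (Fin n → ℝ) →ₗ[ℝ] (Fin n → ℝ) where
  toFun x j := x ⬝ᵥ v (i.succAbove j)
  map_add' x y := by
    funext j
    simp [add_dotProduct]
  map_smul' c x := by
    funext j
    simp [smul_dotProduct]

theorem lv_rel {n : ℕ} (v : Fin (n + 1) → Fin n → ℝ) :
    ∃ i : Fin (n + 1), ∃ b : Fin n → ℝ, ∀ x : Fin n → ℝ,
      x ⬝ᵥ v i = ∑ j, b j * (x ⬝ᵥ v (i.succAbove j)) := by
  have h1 : ¬ LinearIndependent ℝ v := by
    intro h
    have h2 := h.fintype_card_le_finrank
    simp at h2
  obtain ⟨g, hg, i, hi⟩ := Fintype.not_linearIndependent_iff.1 h1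
  refine ⟨i, fun j => -(g (i.succAbove j) / g i), fun x => ?_⟩
  rw [Fin.sum_univ_succAbove _ i] at hg
  have h3 : x ⬝ᵥ (g i • v i + ∑ j, g (i.succAbove j) • v (i.succAbove j)) = 0 := by
    rw [hg, dotProduct_zero]
  rw [dotProduct_add, dotProduct_smul, dotProduct_sum] at h3
  simp only [dotProduct_smul, smul_eq_mul] at h3
  have h4 : x ⬝ᵥ v i = -(∑ j, g (i.succAbove j) * (x ⬝ᵥ v (i.succAbove j))) / g i := by
    rw [eq_div_iff hi]
    linarith
  rw [h4, neg_div, Finset.sum_div, ← Finset.sum_neg_distrib]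
  refine Finset.sum_congr rfl fun j _ => ?_
  ring

theorem lvMap_inj {n : ℕ} {v : Fin (n + 1) → Fin n → ℝ}
    (hb : Bornology.IsBounded (body v 1)) {i : Fin (n + 1)} {b : Fin n → ℝ}
    (hi : ∀ x : Fin n → ℝ, x ⬝ᵥ v i = ∑ j, b j * (x ⬝ᵥ v (i.succAbove j))) :
    Function.Injective (lvMap v i) := by
  rw [injective_iff_map_eq_zero]
  intro x hx
  have h1 : ∀ j, x ⬝ᵥ v (i.succAbove j) = 0 := fun j => congrFun hx j
  have h2 : ∀ j, x ⬝ᵥ v j = 0 := by
    rw [Fin.forall_iff_succAbove i]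
    refine ⟨?_, h1⟩
    rw [hi x]
    exact Finset.sum_eq_zero fun j _ => by rw [h1 j, mul_zero]
  obtain ⟨C, hC⟩ := hb.exists_norm_le
  by_contra hx0
  have h3 : ∀ r : ℝ, r • x ∈ body v 1 := by
    intro r j
    rw [smul_dotProduct, h2 j]
    simp
  have h4 := hC _ (h3 ((|C| + 1) / ‖x‖))
  have h5 : 0 < ‖x‖ := norm_pos_iff.2 hx0
  rw [norm_smul, norm_div, norm_norm, div_mul_cancel₀ _ h5.ne', Real.norm_eq_abs,
    abs_of_pos (by positivity)] at h4
  have := le_abs_self C
  linarith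

theorem lvMap_det {n : ℕ} {v : Fin (n + 1) → Fin n → ℝ} {i : Fin (n + 1)}
    (hi : Function.Injective (lvMap v i)) : LinearMap.det (lvMap v i) ≠ 0 := by
  have h1 := (LinearEquiv.ofInjectiveEndo (lvMap v i) hi).isUnit_det'
  have h2 : ((LinearEquiv.ofInjectiveEndo (lvMap v i) hi : (Fin n → ℝ) ≃ₗ[ℝ] (Fin n → ℝ)) :
      (Fin n → ℝ) →ₗ[ℝ] (Fin n → ℝ)) = lvMap v i := by
    ext x
    simp
  rw [h2] at h1
  exact h1.ne_zero

theorem lv_preimage {n : ℕ} {v : Fin (n + 1) → Fin n → ℝ} {i : Fin (n + 1)} {b : Fin n → ℝ}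
    (hi : ∀ x : Fin n → ℝ, x ⬝ᵥ v i = ∑ j, b j * (x ⬝ᵥ v (i.succAbove j)))
    {h : Fin (n + 1) → ℝ} (hh : ∀ j, 0 < h j) :
    body v h = ((Matrix.toLin' (Matrix.diagonal fun j => (h (i.succAbove j))⁻¹)) ∘ₗ
      lvMap v i) ⁻¹' (slab (h i) fun j => b j * h (i.succAbove j)) := by
  ext x
  have hy : ∀ j, ((Matrix.toLin' (Matrix.diagonal fun j => (h (i.succAbove j))⁻¹)) ∘ₗ
      lvMap v i) x j = (h (i.succAbove j))⁻¹ * (x ⬝ᵥ v (i.succAbove j)) := by
    intro j
    rw [LinearMap.comp_apply, Matrix.toLin'_apply, Matrix.mulVec_diagonal]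
    rfl
  have hd : ((Matrix.toLin' (Matrix.diagonal fun j => (h (i.succAbove j))⁻¹)) ∘ₗ
      lvMap v i) x ⬝ᵥ (fun j => b j * h (i.succAbove j)) = x ⬝ᵥ v i := by
    rw [hi x]
    unfold dotProduct
    refine Finset.sum_congr rfl fun j _ => ?_
    have h1 := hy j
    rw [h1]
    have h2 := (hh (i.succAbove j)).ne'
    have h3 : (h (i.succAbove j))⁻¹ * (x ⬝ᵥ v (i.succAbove j)) * (b j * h (i.succAbove j)) =
        b j * (x ⬝ᵥ v (i.succAbove j)) := by
      field_simp
    exact h3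
  have hm : x ∈ body v h ↔ |x ⬝ᵥ v i| ≤ h i ∧
      ∀ j, |x ⬝ᵥ v (i.succAbove j)| ≤ h (i.succAbove j) :=
    Fin.forall_iff_succAbove i
  have hm2 : x ∈ ((Matrix.toLin' (Matrix.diagonal fun j => (h (i.succAbove j))⁻¹)) ∘ₗ
      lvMap v i) ⁻¹' (slab (h i) fun j => b j * h (i.succAbove j)) ↔
      (∀ j, |(h (i.succAbove j))⁻¹ * (x ⬝ᵥ v (i.succAbove j))| ≤ 1) ∧ |x ⬝ᵥ v i| ≤ h i := by
    change (∀ j, |((Matrix.toLin' (Matrix.diagonal fun j => (h (i.succAbove j))⁻¹)) ∘ₗ
      lvMap v i) x j| ≤ 1) ∧ |((Matrix.toLin' (Matrix.diagonal fun j =>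
        (h (i.succAbove j))⁻¹)) ∘ₗ lvMap v i) x ⬝ᵥ (fun j => b j * h (i.succAbove j))| ≤ h i ↔ _
    rw [hd]
    simp only [hy]
  rw [hm, hm2]
  have hj : ∀ j, |(h (i.succAbove j))⁻¹ * (x ⬝ᵥ v (i.succAbove j))| ≤ 1 ↔
      |x ⬝ᵥ v (i.succAbove j)| ≤ h (i.succAbove j) := by
    intro j
    have h2 := hh (i.succAbove j)
    rw [abs_mul, abs_of_pos (inv_pos.2 h2), inv_mul_le_iff₀ h2, mul_one]
  constructor
  · rintro ⟨h1, h2⟩
    exact ⟨fun j => (hj j).2 (h2 j), h1⟩
  · rintro ⟨h1, h2⟩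
    exact ⟨h2, fun j => (hj j).1 (h1 j)⟩

theorem lv_vol {n : ℕ} (v : Fin (n + 1) → Fin n → ℝ)
    (hb : Bornology.IsBounded (body v 1)) :
    ∃ c : ℝ, 0 < c ∧ ∃ i : Fin (n + 1), ∃ b : Fin n → ℝ, ∀ h : Fin (n + 1) → ℝ, (∀ j, 0 < h j) →
      (volume (body v h)).toReal = c * (∏ j, h (i.succAbove j)) *
        (volume (slab (h i) fun j => b j * h (i.succAbove j))).toReal := by
  obtain ⟨i, b, hi⟩ := lv_rel v
  have hdet := lvMap_det (lvMap_inj hb hi)
  refine ⟨|(LinearMap.det (lvMap v i))⁻¹|, abs_pos.2 (inv_ne_zero hdet), i, b, fun h hh => ?_⟩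
  rw [lv_preimage hi hh]
  have hp : 0 < ∏ j, h (i.succAbove j) := Finset.prod_pos fun j _ => hh _
  have hd : LinearMap.det ((Matrix.toLin' (Matrix.diagonal fun j => (h (i.succAbove j))⁻¹)) ∘ₗ
      lvMap v i) = (∏ j, h (i.succAbove j))⁻¹ * LinearMap.det (lvMap v i) := by
    rw [LinearMap.det_comp, LinearMap.det_toLin', Matrix.det_diagonal, Finset.prod_inv_distrib]
  have hd0 : LinearMap.det ((Matrix.toLin' (Matrix.diagonal fun j => (h (i.succAbove j))⁻¹)) ∘ₗ
      lvMap v i) ≠ 0 := by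
    rw [hd]
    exact mul_ne_zero (inv_ne_zero hp.ne') hdet
  rw [Measure.addHaar_preimage_linearMap _ hd0, ENNReal.toReal_mul,
    ENNReal.toReal_ofReal (abs_nonneg _), hd, mul_inv, inv_inv, abs_mul, abs_of_pos hp]
  ring

theorem body_compact {n : ℕ} {v : Fin (n + 1) → Fin n → ℝ}
    (hb : Bornology.IsBounded (body v 1)) (h : Fin (n + 1) → ℝ) : IsCompact (body v h) := by
  rw [Metric.isCompact_iff_isClosed_bounded]
  constructor
  · have h1 : body v h = ⋂ j, {x | |x ⬝ᵥ v j| ≤ h j} := by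
      ext x
      simp [body]
    rw [h1]
    refine isClosed_iInter fun j => isClosed_le ?_ continuous_const
    unfold dotProduct
    fun_prop
  · obtain ⟨C, hC⟩ := hb.exists_norm_le
    obtain ⟨M, hM⟩ : ∃ M : ℝ, ∀ j, h j ≤ M := by
      obtain ⟨M, hM⟩ := (Set.finite_range h).bddAbove
      exact ⟨M, fun j => hM ⟨j, rfl⟩⟩
    refine isBounded_iff_forall_norm_le.2 ⟨(|M| + 1) * C, fun x hx => ?_⟩
    have hM1 : 0 < |M| + 1 := by positivity
    have h1 : (|M| + 1)⁻¹ • x ∈ body v 1 := by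
      intro j
      rw [smul_dotProduct, smul_eq_mul, abs_mul, abs_of_pos (inv_pos.2 hM1),
        inv_mul_le_iff₀ hM1]
      have h2 := (hx j).trans (hM j)
      have h3 := le_abs_self M
      simp only [Pi.one_apply, mul_one]
      linarith
    have h2 := hC _ h1
    rw [norm_smul, norm_inv, Real.norm_eq_abs, abs_of_pos hM1, inv_mul_le_iff₀ hM1] at h2
    exact h2

theorem body_conv {n : ℕ} (v : Fin (n + 1) → Fin n → ℝ) (h : Fin (n + 1) → ℝ) :
    Convex ℝ (body v h) := by
  intro y hy z hz s t hs ht hst j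
  rw [add_dotProduct, smul_dotProduct, smul_dotProduct]
  have h1 := abs_le.1 (hy j)
  have h2 := abs_le.1 (hz j)
  rw [abs_le, smul_eq_mul, smul_eq_mul]
  have ht' : t = 1 - s := by linarith
  subst ht'
  constructor <;> nlinarith

theorem body_symm {n : ℕ} (v : Fin (n + 1) → Fin n → ℝ) (h : Fin (n + 1) → ℝ) :
    ∀ x ∈ body v h, -x ∈ body v h := by
  intro x hx j
  rw [neg_dotProduct, abs_neg]
  exact hx j

theorem lv_mono_one {n : ℕ} {v : Fin (n + 1) → Fin n → ℝ}
    (hb : Bornology.IsBounded (body v 1)) {g g' : Fin (n + 1) → ℝ} (a : Fin (n + 1))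
    (ha : 0 < g a) (haa : g a ≤ g' a) (hg : ∀ j, j ≠ a → g j = g' j) :
    g a * (volume (body v g')).toReal ≤ g' a * (volume (body v g)).toReal := by
  have h1 := mono_width (body_conv v g') (body_compact hb g') (body_symm v g') (v a) ha haa
  have h2 : body v g' ∩ {x | |x ⬝ᵥ v a| ≤ g' a} = body v g' :=
    inter_eq_left.2 fun x hx => hx a
  have h3 : body v g' ∩ {x | |x ⬝ᵥ v a| ≤ g a} = body v g := by
    ext x
    constructor
    · rintro ⟨h4, h5⟩ j
      by_cases hj : j = a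
      · rw [hj]; exact h5
      · rw [hg j hj]; exact h4 j
    · intro h4
      refine ⟨fun j => ?_, h4 a⟩
      by_cases hj : j = a
      · rw [hj]; exact (h4 a).trans haa
      · rw [← hg j hj]; exact h4 j
  rw [h2, h3] at h1
  exact h1

theorem lv_mono {n : ℕ} {v : Fin (n + 1) → Fin n → ℝ}
    (hb : Bornology.IsBounded (body v 1)) {w W : Fin (n + 1) → ℝ}
    (hw : ∀ j, 0 < w j) (hW : ∀ j, w j ≤ W j) :
    (∏ j, w j) * (volume (body v W)).toReal ≤ (∏ j, W j) * (volume (body v w)).toReal := by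
  classical
  have key : ∀ S : Finset (Fin (n + 1)),
      (∏ j ∈ S, w j) * (volume (body v fun j => if j ∈ S then W j else w j)).toReal ≤
        (∏ j ∈ S, W j) * (volume (body v w)).toReal := by
    intro S
    induction S using Finset.induction_on with
    | empty => simp
    | insert a S ha ih =>
      have h1 := lv_mono_one hb (g := fun j => if j ∈ S then W j else w j)
        (g' := fun j => if j ∈ insert a S then W j else w j) a
        (by simp only [if_neg ha]; exact hw a)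
        (by simp only [if_neg ha, Finset.mem_insert_self, if_true]; exact hW a)
        (by
          intro j hj
          simp [Finset.mem_insert, hj])
      simp only [if_neg ha, Finset.mem_insert_self, if_true] at h1
      rw [Finset.prod_insert ha, Finset.prod_insert ha]
      have hp : 0 ≤ ∏ j ∈ S, w j := Finset.prod_nonneg fun j _ => (hw j).le
      have hWa : 0 ≤ W a := (hw a).le.trans (hW a)
      calc w a * (∏ j ∈ S, w j) *
            (volume (body v fun j => if j ∈ insert a S then W j else w j)).toReal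
          = (∏ j ∈ S, w j) * (w a *
            (volume (body v fun j => if j ∈ insert a S then W j else w j)).toReal) := by ring
        _ ≤ (∏ j ∈ S, w j) * (W a *
            (volume (body v fun j => if j ∈ S then W j else w j)).toReal) :=
          mul_le_mul_of_nonneg_left h1 hp
        _ = W a * ((∏ j ∈ S, w j) *
            (volume (body v fun j => if j ∈ S then W j else w j)).toReal) := by ring
        _ ≤ W a * ((∏ j ∈ S, W j) * (volume (body v w)).toReal) :=
          mul_le_mul_of_nonneg_left ih hWa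
        _ = _ := by ring
  have h := key Finset.univ
  simpa using h

/-- the numeric end of the argument -/
theorem lv_end {s t : ℝ} (_hs : 0 < s) (_ht : 0 < t) (hst : s + t = 1) {A B : ℝ} (hA : 0 < A)
    (hB : 0 < B) : s * ((B / A) ^ t * A) + t * ((B / A) ^ (-s) * B) = A ^ s * B ^ t := by
  have e1 : (B / A) ^ t * A = A ^ s * B ^ t := by
    rw [Real.div_rpow hB.le hA.le]
    have h1 : A = A ^ s * A ^ t := by rw [← Real.rpow_add hA, hst, Real.rpow_one]
    have h2 : (A ^ t) ≠ 0 := (Real.rpow_pos_of_pos hA t).ne'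
    rw [div_mul_eq_mul_div, div_eq_iff h2]
    nth_rewrite 1 [h1]
    ring
  have e2 : (B / A) ^ (-s) * B = A ^ s * B ^ t := by
    rw [Real.rpow_neg (by positivity), Real.div_rpow hB.le hA.le, inv_div]
    have h1 : B = B ^ s * B ^ t := by rw [← Real.rpow_add hB, hst, Real.rpow_one]
    have h2 : (B ^ s) ≠ 0 := (Real.rpow_pos_of_pos hB s).ne'
    rw [div_mul_eq_mul_div, div_eq_iff h2]
    nth_rewrite 1 [h1]
    ring
  rw [e1, e2, ← add_mul, hst, one_mul]

theorem lv_young {s t : ℝ} (hs : 0 < s) (ht : 0 < t) (hst : s + t = 1) {κ x y : ℝ}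
    (hκ : 0 < κ) (hx : 0 < x) (hy : 0 < y) :
    x ^ s * y ^ t ≤ s * (κ ^ t * x) + t * (κ ^ (-s) * y) := by
  have h1 := Real.geom_mean_le_arith_mean2_weighted hs.le ht.le (p₁ := κ ^ t * x)
    (p₂ := κ ^ (-s) * y) (by positivity) (by positivity) hst
  have e : (κ ^ t * x) ^ s * (κ ^ (-s) * y) ^ t = x ^ s * y ^ t := by
    rw [Real.mul_rpow (by positivity) hx.le, Real.mul_rpow (by positivity) hy.le,
      ← Real.rpow_mul hκ.le, ← Real.rpow_mul hκ.le]
    have h2 : κ ^ (t * s) * κ ^ (-s * t) = 1 := by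
      rw [← Real.rpow_add hκ]
      have : t * s + -s * t = 0 := by ring
      rw [this, Real.rpow_zero]
    calc κ ^ (t * s) * x ^ s * (κ ^ (-s * t) * y ^ t)
        = (κ ^ (t * s) * κ ^ (-s * t)) * (x ^ s * y ^ t) := by ring
      _ = _ := by rw [h2, one_mul]
  rw [e] at h1
  exact h1

theorem slab_scale {n : ℕ} {r : ℝ} (hr : 0 < r) (a0 : ℝ) (a : Fin n → ℝ) :
    slab (r * a0) (fun j => r * a j) = slab a0 a := by
  ext y
  have h1 : (fun j => r * a j) = r • a := rfl
  rw [h1]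
  simp only [slab, mem_ofPred_eq, dotProduct_smul, smul_eq_mul, abs_mul, abs_of_pos hr]
  rw [mul_le_mul_iff_right₀ hr]

/-- The volume of an intersection of `n + 1` slabs is logarithmically concave in the logarithms of
the widths. -/
theorem body_logconcave {n : ℕ} (v : Fin (n + 1) → Fin n → ℝ)
    (hb : Bornology.IsBounded (body v 1)) {h k : Fin (n + 1) → ℝ} (hh : ∀ j, 0 < h j)
    (hk : ∀ j, 0 < k j) {s t : ℝ} (hs : 0 < s) (ht : 0 < t) (hst : s + t = 1) :
    (volume (body v h)).toReal ^ s * (volume (body v k)).toReal ^ t ≤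
      (volume (body v fun j => h j ^ s * k j ^ t)).toReal := by
  obtain ⟨c, hc, i, b, hvol⟩ := lv_vol v hb
  have hS : ∀ g : Fin (n + 1) → ℝ, (∀ j, 0 < g j) →
      0 < (volume (slab (g i) fun j => b j * g (i.succAbove j))).toReal := fun g hg =>
    ENNReal.toReal_pos (slab_volume_ne (hg i) _) (slab_isCompact _ _).measure_ne_top
  obtain ⟨A, hA⟩ : ∃ A, A = h i / (volume (slab (h i) fun j => b j * h (i.succAbove j))).toReal :=
    ⟨_, rfl⟩
  obtain ⟨B, hB⟩ : ∃ B, B = k i / (volume (slab (k i) fun j => b j * k (i.succAbove j))).toReal :=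
    ⟨_, rfl⟩
  have hA0 : 0 < A := by rw [hA]; exact div_pos (hh i) (hS h hh)
  have hB0 : 0 < B := by rw [hB]; exact div_pos (hk i) (hS k hk)
  have hκ : 0 < B / A := div_pos hB0 hA0
  obtain ⟨W, hW⟩ : ∃ W : Fin (n + 1) → ℝ,
      W = fun j => s * ((B / A) ^ t * h j) + t * ((B / A) ^ (-s) * k j) := ⟨_, rfl⟩
  have hW0 : ∀ j, 0 < W j := by
    intro j
    rw [hW]
    have h1 := hh j
    have h2 := hk j
    positivity
  have hw0 : ∀ j, 0 < h j ^ s * k j ^ t := fun j =>
    mul_pos (Real.rpow_pos_of_pos (hh j) s) (Real.rpow_pos_of_pos (hk j) t)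
  have hwW : ∀ j, h j ^ s * k j ^ t ≤ W j := by
    intro j
    rw [hW]
    exact lv_young hs ht hst hκ (hh j) (hk j)
  have step1 : W i ≤ A ^ s * B ^ t *
      (volume (slab (W i) fun j => b j * W (i.succAbove j))).toReal := by
    have h1 := slab_convex (mul_pos (Real.rpow_pos_of_pos hκ t) (hh i))
      (mul_pos (Real.rpow_pos_of_pos hκ (-s)) (hk i))
      (fun j => (B / A) ^ t * (b j * h (i.succAbove j)))
      (fun j => (B / A) ^ (-s) * (b j * k (i.succAbove j))) hs ht hst
    have h2 : s • (fun j => (B / A) ^ t * (b j * h (i.succAbove j))) +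
        t • (fun j => (B / A) ^ (-s) * (b j * k (i.succAbove j))) =
        fun j => b j * W (i.succAbove j) := by
      funext j
      rw [hW]
      simp only [Pi.add_apply, Pi.smul_apply, smul_eq_mul]
      ring
    have h3 : s * ((B / A) ^ t * h i) + t * ((B / A) ^ (-s) * k i) = W i := by rw [hW]
    rw [h2, h3, slab_scale (Real.rpow_pos_of_pos hκ t),
      slab_scale (Real.rpow_pos_of_pos hκ (-s)), mul_div_assoc, mul_div_assoc, ← hA, ← hB,
      lv_end hs ht hst hA0 hB0, div_le_iff₀ (hS W hW0)] at h1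
    exact h1
  have step2 := lv_mono hb (w := fun j => h j ^ s * k j ^ t) hw0 hwW
  have hPW : 0 < ∏ j, W (i.succAbove j) := Finset.prod_pos fun j _ => hW0 _
  rw [hvol W hW0, Fin.prod_univ_succAbove W i] at step2
  have hF0 : 0 ≤ (volume (body v fun j => h j ^ s * k j ^ t)).toReal := ENNReal.toReal_nonneg
  have step3 : c * ∏ j, (h j ^ s * k j ^ t) ≤
      A ^ s * B ^ t * (volume (body v fun j => h j ^ s * k j ^ t)).toReal := by
    have h1 : 0 < (∏ j, W (i.succAbove j)) *
        (volume (slab (W i) fun j => b j * W (i.succAbove j))).toReal :=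
      mul_pos hPW (hS W hW0)
    refine le_of_mul_le_mul_left ?_ h1
    calc (∏ j, W (i.succAbove j)) *
          (volume (slab (W i) fun j => b j * W (i.succAbove j))).toReal *
          (c * ∏ j, (h j ^ s * k j ^ t))
        = (∏ j, (h j ^ s * k j ^ t)) * (c * (∏ j, W (i.succAbove j)) *
          (volume (slab (W i) fun j => b j * W (i.succAbove j))).toReal) := by ring
      _ ≤ W i * (∏ j, W (i.succAbove j)) *
          (volume (body v fun j => h j ^ s * k j ^ t)).toReal := step2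
      _ = W i * ((∏ j, W (i.succAbove j)) *
          (volume (body v fun j => h j ^ s * k j ^ t)).toReal) := by ring
      _ ≤ (A ^ s * B ^ t *
          (volume (slab (W i) fun j => b j * W (i.succAbove j))).toReal) *
          ((∏ j, W (i.succAbove j)) *
          (volume (body v fun j => h j ^ s * k j ^ t)).toReal) :=
        mul_le_mul_of_nonneg_right step1 (mul_nonneg hPW.le hF0)
      _ = _ := by ring
  have hAF : ∀ g : Fin (n + 1) → ℝ, (∀ j, 0 < g j) →
      (volume (body v g)).toReal *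
        (g i / (volume (slab (g i) fun j => b j * g (i.succAbove j))).toReal) =
        c * ∏ j, g j := by
    intro g hg
    have h1 := (hS g hg).ne'
    rw [hvol g hg, Fin.prod_univ_succAbove g i]
    field_simp
  have hPh : 0 < ∏ j, h j := Finset.prod_pos fun j _ => hh j
  have hPk : 0 < ∏ j, k j := Finset.prod_pos fun j _ => hk j
  have hprod : ∏ j, (h j ^ s * k j ^ t) = (∏ j, h j) ^ s * (∏ j, k j) ^ t := by
    rw [Finset.prod_mul_distrib, Real.finsetProd_rpow _ _ (fun j _ => (hh j).le),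
      Real.finsetProd_rpow _ _ (fun j _ => (hk j).le)]
  have e1 := hAF h hh
  have e2 := hAF k hk
  rw [← hA] at e1
  rw [← hB] at e2
  have hcc : c = c ^ s * c ^ t := by rw [← Real.rpow_add hc, hst, Real.rpow_one]
  have step4 : A ^ s * B ^ t * ((volume (body v h)).toReal ^ s *
      (volume (body v k)).toReal ^ t) = c * ∏ j, (h j ^ s * k j ^ t) := by
    calc A ^ s * B ^ t * ((volume (body v h)).toReal ^ s * (volume (body v k)).toReal ^ t)
        = ((volume (body v h)).toReal ^ s * A ^ s) *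
          ((volume (body v k)).toReal ^ t * B ^ t) := by ring
      _ = (c * ∏ j, h j) ^ s * (c * ∏ j, k j) ^ t := by
        rw [← Real.mul_rpow ENNReal.toReal_nonneg hA0.le,
          ← Real.mul_rpow ENNReal.toReal_nonneg hB0.le, e1, e2]
      _ = (c ^ s * c ^ t) * ((∏ j, h j) ^ s * (∏ j, k j) ^ t) := by
        rw [Real.mul_rpow hc.le hPh.le, Real.mul_rpow hc.le hPk.le]
        ring
      _ = _ := by rw [← hcc, hprod]
  rw [← step4] at step3
  exact le_of_mul_le_mul_left step3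
    (mul_pos (Real.rpow_pos_of_pos hA0 s) (Real.rpow_pos_of_pos hB0 t))

end Vale.Agent.P227.Slab
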