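import Vale.Agent.P227.T1.Refl
import Vale.Agent.P227.PL
import Vale.Agent.P227.Slab.Ball

/-!
# P227 / Slab : Busemann's inequality in terms of sections
-/

open MeasureTheory Set
open scoped ENNReal NNReal Pointwise

namespace Vale.Agent.P227.Slab

open Vale.Agent.P227.T1

section

variable {m : ℕ}

theorem sec_vol_ne_top {S : Set (Fin (m + 1) → ℝ)} (hS : IsCompact S) (a : ℝ) :
    volume (sec S a) ≠ ∞ := (sec_isCompact hS a).measure_lt_top.ne

theorem sec_vol_neg {S : Set (Fin (m + 1) → ℝ)} (s : ∀ x ∈ S, -x ∈ S) (a : ℝ) :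
    volume (sec S (-a)) = volume (sec S a) := by
  have key : ∀ b, sec S (-b) = -(sec S b) := by
    have h1 : ∀ b, sec S b ⊆ -(sec S (-b)) := by
      intro b x hx
      have := s _ hx
      show (Fin.cons (-b) (-x) : Fin (m + 1) → ℝ) ∈ S
      convert this using 1
      funext i
      refine Fin.cases ?_ (fun j => ?_) i
      · simp
      · simp
    intro b
    apply Subset.antisymm
    · have := h1 (-b)
      rwa [neg_neg] at this
    · intro x hx
      have := h1 b (Set.mem_neg.1 hx)
      simpa using this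
  rw [key, Measure.measure_neg]

/-- Volumes of sections of a convex set are logarithmically concave. -/
theorem sec_vol_log {S : Set (Fin (m + 1) → ℝ)} (hc : Convex ℝ S) (hS : IsCompact S)
    {s t : ℝ} (hs : 0 < s) (ht : 0 < t) (hst : s + t = 1) (a b : ℝ) :
    volume (sec S a) ^ s * volume (sec S b) ^ t ≤ volume (sec S (s * a + t * b)) := by
  refine bm_mul hs ht hst (sec_isCompact hS a).measurableSet (sec_isCompact hS b).measurableSet
    (sec_isCompact hS _).measurableSet ?_
  intro x hx y hy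
  have := hc hx hy hs.le ht.le hst
  show (Fin.cons (s * a + t * b) (s • x + t • y) : Fin (m + 1) → ℝ) ∈ S
  convert this using 1
  funext i
  refine Fin.cases ?_ (fun j => ?_) i
  · simp
  · simp

/-- Real valued section function. -/
noncomputable def sv (S : Set (Fin (m + 1) → ℝ)) (a : ℝ) : ℝ := (volume (sec S a)).toReal

theorem sv_nonneg (S : Set (Fin (m + 1) → ℝ)) (a : ℝ) : 0 ≤ sv S a := ENNReal.toReal_nonneg

theorem sv_log {S : Set (Fin (m + 1) → ℝ)} (hc : Convex ℝ S) (hS : IsCompact S)
    {s t : ℝ} (hs : 0 < s) (ht : 0 < t) (hst : s + t = 1) (a b : ℝ) :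
    sv S a ^ s * sv S b ^ t ≤ sv S (s * a + t * b) := by
  unfold sv
  rw [ENNReal.toReal_rpow, ENNReal.toReal_rpow, ← ENNReal.toReal_mul]
  exact ENNReal.toReal_mono (sec_vol_ne_top hS _) (sec_vol_log hc hS hs ht hst a b)

theorem sv_measurable {S : Set (Fin (m + 1) → ℝ)} (hS : IsCompact S) : Measurable (sv S) :=
  (measurable_sec hS.measurableSet).ennreal_toReal

theorem lint_half {S : Set (Fin (m + 1) → ℝ)} (hS : IsCompact S) (s : ∀ x ∈ S, -x ∈ S) :
    volume S = 2 * ∫⁻ a in Ioi 0, volume (sec S a) := by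
  rw [volume_sec hS.measurableSet]
  exact lintegral_even (measurable_sec hS.measurableSet) (sec_vol_neg s)

theorem lint_ne_top {S : Set (Fin (m + 1) → ℝ)} (hS : IsCompact S) (s : ∀ x ∈ S, -x ∈ S) :
    ∫⁻ a in Ioi 0, volume (sec S a) ≠ ∞ := by
  intro h
  have := lint_half hS s
  rw [h] at this
  exact hS.measure_lt_top.ne (by rw [this]; simp)

theorem ofReal_sv {S : Set (Fin (m + 1) → ℝ)} (hS : IsCompact S) (a : ℝ) :
    ENNReal.ofReal (sv S a) = volume (sec S a) := ENNReal.ofReal_toReal (sec_vol_ne_top hS a)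

theorem sv_integrable {S : Set (Fin (m + 1) → ℝ)} (hS : IsCompact S) (s : ∀ x ∈ S, -x ∈ S) :
    IntegrableOn (sv S) (Ioi 0) := by
  refine ⟨(sv_measurable hS).aestronglyMeasurable, ?_⟩
  rw [hasFiniteIntegral_iff_ofReal (Filter.Eventually.of_forall fun a => sv_nonneg S a)]
  simp_rw [ofReal_sv hS]
  exact lt_of_le_of_ne le_top (lint_ne_top hS s)

theorem int_half {S : Set (Fin (m + 1) → ℝ)} (hS : IsCompact S) (s : ∀ x ∈ S, -x ∈ S) :
    (volume S).toReal = 2 * ∫ a in Ioi 0, sv S a := by
  have h1 : ∫ a in Ioi 0, sv S a = (∫⁻ a in Ioi 0, volume (sec S a)).toReal := by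
    rw [integral_eq_lintegral_of_nonneg_ae (Filter.Eventually.of_forall fun a => sv_nonneg S a)
      (sv_measurable hS).aestronglyMeasurable]
    simp_rw [ofReal_sv hS]
  rw [h1, lint_half hS s, ENNReal.toReal_mul]
  simp

/-- The height function of a symmetric convex body is supported on a symmetric interval. -/
theorem exists_radius {S : Set (Fin (m + 1) → ℝ)} (hc : Convex ℝ S) (hS : IsCompact S)
    (s : ∀ x ∈ S, -x ∈ S) (v : volume S ≠ 0) :
    ∃ R : ℝ, 0 < R ∧ (∀ x ∈ Ioo 0 R, 0 < sv S x) ∧ (∀ x, R < x → sv S x = 0) ∧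
      ContinuousOn (sv S) (Ioo 0 R) := by
  set D : Set ℝ := {x | 0 < sv S x} with hD
  have hneg : ∀ x, sv S (-x) = sv S x := by
    intro x
    unfold sv
    rw [sec_vol_neg s]
  have hconv : Convex ℝ D := by
    rw [convex_iff_forall_pos]
    intro x hx y hy a b ha hb hab
    have h1 : 0 < sv S x ^ a * sv S y ^ b :=
      mul_pos (Real.rpow_pos_of_pos hx a) (Real.rpow_pos_of_pos hy b)
    exact lt_of_lt_of_le h1 (by simpa using sv_log hc hS ha hb hab x y)
  have hbdd : BddAbove D := by
    obtain ⟨M, hM⟩ := hS.isBounded.exists_norm_le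
    refine ⟨M, ?_⟩
    intro x hx
    have hne : (sec S x).Nonempty := by
      by_contra h
      rw [not_nonempty_iff_eq_empty] at h
      have : sv S x = 0 := by simp [sv, h]
      exact absurd hx (by simp [hD, this])
    obtain ⟨y, hy⟩ := hne
    have h1 := hM _ hy
    have h2 := norm_le_pi_norm (Fin.cons x y : Fin (m + 1) → ℝ) 0
    simp only [Fin.cons_zero] at h2
    exact (le_abs_self x).trans ((Real.norm_eq_abs x ▸ h2).trans h1)
  have hex : ∃ x ∈ D, 0 < x := by
    by_contra h
    push Not at h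
    apply v
    rw [lint_half hS s]
    have : ∫⁻ a in Ioi 0, volume (sec S a) = 0 := by
      rw [lintegral_eq_zero_iff (measurable_sec hS.measurableSet)]
      refine (ae_restrict_iff' measurableSet_Ioi).2 (Filter.Eventually.of_forall fun a ha => ?_)
      have h3 : sv S a = 0 := by
        by_contra h4
        exact absurd (h a (lt_of_le_of_ne (sv_nonneg S a) (Ne.symm h4))) (not_le.2 ha)
      have := ofReal_sv hS a
      rw [h3] at this
      simpa using this.symm
    rw [this, mul_zero]
  obtain ⟨x0, hx0, hx0'⟩ := hex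
  have hR0 : x0 ≤ sSup D := le_csSup hbdd hx0
  have hin : ∀ x ∈ Ioo (-(sSup D)) (sSup D), x ∈ D := by
    intro x hx
    have habs : |x| < sSup D := abs_lt.2 ⟨hx.1, hx.2⟩
    obtain ⟨y, hy, hxy⟩ := exists_lt_of_lt_csSup ⟨x0, hx0⟩ habs
    have hy' : -y ∈ D := by
      show 0 < sv S (-y)
      rw [hneg]; exact hy
    have := abs_lt.1 hxy
    exact hconv.ordConnected.out hy' hy ⟨this.1.le, this.2.le⟩
  refine ⟨sSup D, lt_of_lt_of_le hx0' hR0, ?_, ?_, ?_⟩
  · intro x hx
    exact hin x ⟨by linarith [hx.1, hx.2], hx.2⟩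
  · intro x hx
    by_contra h
    have : x ∈ D := lt_of_le_of_ne (sv_nonneg S x) (Ne.symm h)
    exact absurd (le_csSup hbdd this) (not_le.2 hx)
  · have hlog : ConcaveOn ℝ (Ioo (-(sSup D)) (sSup D)) (fun x => Real.log (sv S x)) := by
      refine ⟨convex_Ioo _ _, ?_⟩
      intro x hx y hy a b ha hb hab
      rcases ha.eq_or_lt with rfl | ha
      · have : b = 1 := by linarith
        subst this; simp
      rcases hb.eq_or_lt with rfl | hb
      · have : a = 1 := by linarith
        subst this; simp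
      have px : 0 < sv S x := hin x hx
      have py : 0 < sv S y := hin y hy
      have h1 := sv_log hc hS ha hb hab x y
      have h2 : 0 < sv S x ^ a * sv S y ^ b :=
        mul_pos (Real.rpow_pos_of_pos px a) (Real.rpow_pos_of_pos py b)
      have h3 := Real.log_le_log h2 h1
      rw [Real.log_mul (Real.rpow_pos_of_pos px a).ne' (Real.rpow_pos_of_pos py b).ne',
        Real.log_rpow px, Real.log_rpow py] at h3
      simpa using h3
    have hcont := hlog.continuousOn isOpen_Ioo
    have h4 : ContinuousOn (sv S) (Ioo (-(sSup D)) (sSup D)) := by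
      refine (Real.continuous_exp.comp_continuousOn hcont).congr ?_
      intro x hx
      simp only [Function.comp_apply]
      rw [Real.exp_log (hin x hx)]
    exact h4.mono fun x hx => ⟨by linarith [hx.1, hx.2], hx.2⟩

theorem int_Ioo {S : Set (Fin (m + 1) → ℝ)} {R : ℝ}
    (h0 : ∀ x, R < x → sv S x = 0) :
    ∫ a in Ioi 0, sv S a = ∫ a in Ioo 0 R, sv S a := by
  rw [← integral_Ioc_eq_integral_Ioo]
  refine setIntegral_eq_of_subset_of_forall_sdiff_eq_zero measurableSet_Ioi
    Ioc_subset_Ioi_self ?_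
  intro x hx
  apply h0
  by_contra h
  exact hx.2 ⟨hx.1, not_lt.1 h⟩

end

/-- If the sections of `A`, `B`, `C` at heights `x`, `y` and at the harmonic mean of `x`, `y` are
related by convex combinations with the corresponding weights, then `1 / |C|` is at most the mean
of `1 / |A|` and `1 / |B|`. -/
theorem sec_ball {m : ℕ} {A B C : Set (Fin (m + 1) → ℝ)} (cA : Convex ℝ A) (cB : Convex ℝ B)
    (kA : IsCompact A) (kB : IsCompact B) (kC : IsCompact C)
    (sA : ∀ x ∈ A, -x ∈ A) (sB : ∀ x ∈ B, -x ∈ B) (sC : ∀ x ∈ C, -x ∈ C)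
    (vA : volume A ≠ 0) (vB : volume B ≠ 0) {p q : ℝ} (hp : 0 < p) (hq : 0 < q) (hpq : p + q = 1)
    (h : ∀ x y : ℝ, 0 < x → 0 < y → ∀ a ∈ sec A x, ∀ b ∈ sec B y,
      (p * y / (p * y + q * x)) • a + (q * x / (p * y + q * x)) • b ∈
        sec C (x * y / (p * y + q * x))) :
    1 / (volume C).toReal ≤ p / (volume A).toReal + q / (volume B).toReal := by
  obtain ⟨R, hR, pA, zA, contA⟩ := exists_radius cA kA sA vA
  obtain ⟨T, hT, pB, zB, contB⟩ := exists_radius cB kB sB vB
  have key := ball_one hp hq hpq hR hT contA contB pA pB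
    ((sv_integrable kA sA).mono_set Ioo_subset_Ioi_self)
    ((sv_integrable kB sB).mono_set Ioo_subset_Ioi_self)
    (sv_integrable kC sC) (sv_nonneg C) (by
      intro x hx y hy
      have hd : 0 < p * y + q * x := add_pos (mul_pos hp hy.1) (mul_pos hq hx.1)
      have ha : 0 < p * y / (p * y + q * x) := div_pos (mul_pos hp hy.1) hd
      have hb : 0 < q * x / (p * y + q * x) := div_pos (mul_pos hq hx.1) hd
      have hab : p * y / (p * y + q * x) + q * x / (p * y + q * x) = 1 := by
        rw [← add_div, div_self hd.ne']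
      unfold sv
      rw [ENNReal.toReal_rpow, ENNReal.toReal_rpow, ← ENNReal.toReal_mul]
      refine ENNReal.toReal_mono (sec_vol_ne_top kC _) ?_
      exact bm_mul ha hb hab (sec_isCompact kA x).measurableSet (sec_isCompact kB y).measurableSet
        (sec_isCompact kC _).measurableSet (h x y hx.1 hy.1))
  rw [← int_Ioo zA, ← int_Ioo zB] at key
  rw [int_half kA sA, int_half kB sB, int_half kC sC]
  have e1 : ∀ c I : ℝ, c / (2 * I) = (1 / 2) * (c / I) := by
    intro c I
    rw [div_mul_div_comm, one_mul]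
  rw [e1, e1, e1, ← mul_add]
  exact mul_le_mul_of_nonneg_left key (by norm_num)

end Vale.Agent.P227.Slab
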